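import Vale.Agent.P354Q.Weyl
import Vale.Agent.P354C.Tab

/-!
The frame of the unknowns U of P354C; the statement VAC.
-/

open scoped ContDiff
open Set Filter Topology

set_option maxSynthPendingDepth 3
set_option linter.unusedSimpArgs false

namespace Vale.Agent.P354Q

open Vale.Agent.P354n (R4)
open Vale.Agent.P354C (Ix E detP Gam sg Wy asym torC dEof curD Full vec cp fr dfr SmU th met con
  VAC CONV DET lift1 lift2 L1 L2)
open Vale.Agent.P354C.Ix

section gen
variable {E : Type} [NormedAddCommGroup E] [NormedSpace ℝ E] {ι : Type} [Fintype ι]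

/-- The Christoffel map from the coframe and the coefficients. -/
lemma conn_formula {O : Set E} {e : ι → E → E} (he : Frame O e) {θ : E → E → ι → ℝ}
    (hθ : ∀ y ∈ O, ∀ v, ∑ a, θ y v a • e a y = v) {K : E → E →L[ℝ] E →L[ℝ] E}
    {Γ : ι → ι → ι → E → ℝ} {x : E} (hx : x ∈ O) (hN : Nab (fun y u v => K y u v) e Γ x)
    (a b : E) : K x a b = ∑ k, (fderiv ℝ (fun z => θ z b k) x a +
      ∑ i, ∑ j, θ x a i * Γ i j k x * θ x b j) • e k x := by
  have hO := he.isOpen
  obtain ⟨θ', hs, hθ'⟩ := he.coframe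
  have hd : ∀ k, DifferentiableAt ℝ (fun z => θ z b k) x := fun k =>
    diffAt hO (((hs k).clm_apply contDiffOn_const).congr fun y hy =>
      he.ext hy ((hθ y hy b).trans (hθ' y hy b).symm) k) hx
  have h1 := dV_congr hO (F := fun y => ∑ k, θ y b k • e k y) (F' := fun _ => b)
    (fun y hy => hθ y hy b) (fun _ => a) hx
  rw [dV_sum (F := fun k y => θ y b k • e k y)
    fun k => (hd k).smul (diffAt hO (he.smooth k) hx)] at h1
  simp only [dV_smul (hd _) (diffAt hO (he.smooth _) hx)] at h1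
  simp only [dV, dd, fderiv_fun_const, Pi.zero_apply, zero_apply, Finset.sum_add_distrib] at h1
  have h2 : ∀ j, fderiv ℝ (e j) x a + K x a (e j x) = ∑ i, ∑ k, (θ x a i * Γ i j k x) • e k x :=
    fun j => by
      conv_lhs => rw [← hθ x hx a]
      simp only [map_sum, map_smul, sum_apply, smul_apply, ← Finset.sum_add_distrib, ← smul_add]
      refine Finset.sum_congr rfl fun i _ => ?_
      rw [hN i j, Finset.smul_sum]
      simp only [smul_smul]
  have h3 : ∑ j, θ x b j • fderiv ℝ (e j) x a + K x a b =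
      ∑ k, (∑ i, ∑ j, θ x a i * Γ i j k x * θ x b j) • e k x := by
    conv_lhs => rw [← congrArg (K x a) (hθ x hx b)]
    simp only [map_sum, map_smul, ← Finset.sum_add_distrib, ← smul_add, h2, Finset.smul_sum,
      Finset.sum_smul, smul_smul]
    rw [Finset.sum_comm]
    conv_rhs => rw [Finset.sum_comm]
    refine Finset.sum_congr rfl fun i _ => ?_
    rw [Finset.sum_comm]
    exact Finset.sum_congr rfl fun k _ => Finset.sum_congr rfl fun j _ => by rw [mul_comm]
  simp only [add_smul, Finset.sum_add_distrib]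
  rw [← h3, ← add_assoc, h1, zero_add]

/-- The derivative of a linear function of the components. -/
lemma dd_lin {κ : Type} [Fintype κ] {L : (κ → ℝ) → ℝ} (hL : IsLinearMap ℝ L) {U : E → κ → ℝ}
    {x : E} (hU : ∀ i, DifferentiableAt ℝ (fun z => U z i) x) (v : E) :
    fderiv ℝ (fun z => L (U z)) x v = L fun i => fderiv ℝ (fun z => U z i) x v := by
  have h1 : HasFDerivAt U (ContinuousLinearMap.pi fun i => fderiv ℝ (fun z => U z i) x) x :=
    hasFDerivAt_pi.2 fun i => (hU i).hasFDerivAt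
  have h2 := (LinearMap.toContinuousLinearMap (hL.mk' L)).hasFDerivAt.comp x h1
  exact congrArg (fun A : E →L[ℝ] ℝ => A v) h2.fderiv

lemma sm_lin {κ : Type} [Fintype κ] {L : (κ → ℝ) → ℝ} (hL : IsLinearMap ℝ L) {U : E → κ → ℝ}
    {O : Set E} (hU : ∀ i, ContDiffOn ℝ ∞ (fun z => U z i) O) :
    ContDiffOn ℝ ∞ (fun z => L (U z)) O :=
  (LinearMap.toContinuousLinearMap (hL.mk' L)).contDiff.comp_contDiffOn (contDiffOn_pi.2 hU)

end gen

/-- The frame and the connection coefficients as fields. -/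
def fe (U : R4 → Ix → ℝ) (a : Fin 4) (p : R4) : R4 := fr (U p) a
def Gm (U : R4 → Ix → ℝ) (a b c : Fin 4) (p : R4) : ℝ := Gam (U p) a c b

lemma gam_lin (i j k : Fin 4) : IsLinearMap ℝ fun U : Ix → ℝ => Gam U i j k := by
  revert i j k
  refine fin4 ?_ ?_ ?_ ?_ <;> refine fin4 ?_ ?_ ?_ ?_ <;> refine fin4 ?_ ?_ ?_ ?_ <;>
    refine ⟨fun U V => ?_, fun c U => ?_⟩ <;>
    simp only [Gam, Matrix.cons_val, Pi.add_apply, Pi.smul_apply, smul_eq_mul] <;> ring

/-- The Weyl field of P354C is the Weyl tensor of these Psi. -/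
def pU (U : Ix → ℝ) : Fin 5 → ℝ := ![-U a1, -U be1, -U rho, U bb1, -U ab1]
def qU (U : Ix → ℝ) : Fin 5 → ℝ := ![-U a2, -U be2, -U sig, -U bb2, U ab2]

lemma wy_eq (U : Ix → ℝ) (j k x y : Fin 4) : Wy U j k x y = WeylU (pU U) (qU U) x y k j := by
  revert x y
  refine anti_ext (fun x y => by rw [P354C.Wy_anti U j k x y, add_neg_cancel]) (fun x y => by
    simp only [WeylU, low, ← Finset.sum_add_distrib, ← add_mul, weyl_anti1, zero_mul,
      Finset.sum_const_zero]) ?_ ?_ ?_ ?_ ?_ ?_ <;> revert j k <;>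
    refine fin4 ?_ ?_ ?_ ?_ <;> refine fin4 ?_ ?_ ?_ ?_ <;>
    simp only [Wy, asym, WeylU, low, Weyl, etai, pU, qU, Fin.sum_univ_four, Matrix.cons_val] <;>
    ring

lemma vec_sum (c : Fin 4 → ℝ) (v : Fin 4 → Fin 4 → ℝ) :
    ∑ k, c k • vec (v k) = vec fun μ => ∑ k, c k * v k μ := by
  simp [vec, Fin.sum_univ_four]

lemma vec_inj {c c' : Fin 4 → ℝ} (h : vec c = vec c') : c = c' := by
  simp only [vec, Prod.mk.injEq] at h
  exact funext (fin4 h.1 h.2.1 h.2.2.1 h.2.2.2)

lemma fr_th {U : Ix → ℝ} (h : detP U ≠ 0) (a : R4) : ∑ k, th U a k • fr U k = a := by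
  obtain ⟨a0, a1, a2, a3⟩ := a
  simp only [fr, vec_sum]
  simp only [vec, E, th, Fin.sum_univ_four, Matrix.cons_val, Prod.mk.injEq]
  refine ⟨by ring, by ring, ?_, ?_⟩ <;> field_simp <;> simp only [detP] <;> ring

lemma th_fr {U : Ix → ℝ} (h : detP U ≠ 0) (c : Fin 4 → ℝ) : th U (∑ k, c k • fr U k) = c := by
  simp only [fr, vec_sum]
  funext j
  revert j
  refine fin4 ?_ ?_ ?_ ?_ <;> simp only [vec, E, th, Fin.sum_univ_four, Matrix.cons_val] <;>
    field_simp <;> (try simp only [detP]) <;> ring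

lemma th_lin (U : Ix → ℝ) : IsLinearMap ℝ (th U) := by
  refine ⟨fun a b => funext (fin4 ?_ ?_ ?_ ?_), fun c a => funext (fin4 ?_ ?_ ?_ ?_)⟩ <;>
    simp only [th, Matrix.cons_val, Pi.add_apply, Pi.smul_apply, smul_eq_mul, Prod.fst_add,
      Prod.snd_add, Prod.smul_fst, Prod.smul_snd] <;> ring

lemma eta_eq (s t : Fin 4 → ℝ) : P354C.eta s t = ∑ a, ∑ b, s a * eta a b * t b := by
  simp only [P354C.eta, eta, Fin.sum_univ_four, Matrix.cons_val]
  ring

/-- The seven entries which define the metric are smooth. -/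
def Sm7 (U : R4 → Ix → ℝ) (D : Set R4) : Prop :=
  ∀ i ∈ [O, b1, b2, P11, P12, P21, P22], ContDiffOn ℝ ∞ (fun z => U z i) D

variable {U : R4 → Ix → ℝ} {D : Set R4}

lemma sm_E (h : Sm7 U D) (a μ : Fin 4) : ContDiffOn ℝ ∞ (fun p => E (U p) a μ) D := by
  revert a μ
  refine fin4 ?_ ?_ ?_ ?_ <;> refine fin4 ?_ ?_ ?_ ?_ <;> simp only [E, Matrix.cons_val] <;>
    first | exact contDiffOn_const | exact h _ (by simp)

lemma frame_fe (hD : IsOpen D) (h : Sm7 U D) (hP : ∀ p ∈ D, detP (U p) ≠ 0) :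
    Frame D (fe U) where
  isOpen := hD
  smooth a := (sm_E h a 0).prodMk ((sm_E h a 1).prodMk ((sm_E h a 2).prodMk (sm_E h a 3)))
  indep p hp c hc a := by
    have := th_fr (hP p hp) c
    rw [show ∑ k, c k • fr (U p) k = 0 from hc, (th_lin _).map_zero] at this
    exact (congrFun this a).symm
  span p hp v := ⟨_, (fr_th (hP p hp) v).symm⟩

lemma th_fr' {U : Ix → ℝ} (h : detP U ≠ 0) (a : Fin 4) :
    th U (fr U a) = fun k => if k = a then 1 else 0 := by
  rw [← th_fr h (fun k => if k = a then 1 else 0)]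
  simp

lemma isMet_fe (h : Sm7 U D) (hP : ∀ p ∈ D, detP (U p) ≠ 0) (hO : ∀ p ∈ D, U p O ≠ 0) :
    IsMet D (fe U) eta (fun p => U p O ^ 2) (met U) where
  lin p _ v := ⟨fun a b => by
      simp only [met, (th_lin _).map_add, P354C.eta, Pi.add_apply]; ring,
    fun c a => by
      simp only [met, (th_lin _).map_smul, P354C.eta, Pi.smul_apply, smul_eq_mul]; ring⟩
  symm p _ u v := by simp only [met, P354C.eta]; ring
  val p hp a b := by simp [met, fe, th_fr' (hP p hp), eta_eq]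
  smooth := (h O (by simp)).pow 2
  ne p hp := pow_ne_zero 2 (hO p hp)

lemma dV_fe (hD : IsOpen D) (h : Sm7 U D) {p : R4} (hp : p ∈ D) (x y : Fin 4) :
    dV (fe U x) (fe U y) p = vec (dEof (dfr U p) x y) := by
  have h1 : ∀ μ, fderiv ℝ (fun z => E (U z) y μ) p (fr (U p) x) = dEof (dfr U p) x y μ := by
    revert y
    refine fin4 ?_ ?_ ?_ ?_ <;> refine fin4 ?_ ?_ ?_ ?_ <;>
      simp only [E, dEof, Matrix.cons_val, dfr, fderiv_fun_const, Pi.zero_apply, zero_apply]
  have d := fun μ => (diffAt hD (sm_E h y μ) hp).hasFDerivAt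
  have h2 := ((d 0).prodMk ((d 1).prodMk ((d 2).prodMk (d 3)))).fderiv
  show fderiv ℝ (fun z => (E (U z) y 0, E (U z) y 1, E (U z) y 2, E (U z) y 3)) p (fr (U p) x) = _
  rw [h2]
  simp only [ContinuousLinearMap.prod_apply, h1, vec]

lemma noTor_iff (hD : IsOpen D) (h : Sm7 U D) {p : R4} (hp : p ∈ D) :
    NoTor (fe U) (Gm U) p ↔ ∀ x y μ, torC (U p) (dEof (dfr U p)) x y μ = 0 := by
  refine forall_congr' fun x => forall_congr' fun y => ?_
  have h1 : br (fe U x) (fe U y) p = vec fun μ => dEof (dfr U p) x y μ - dEof (dfr U p) y x μ := by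
    rw [br_eq, dV_fe hD h hp, dV_fe hD h hp]
    rfl
  rw [h1]
  simp only [fe, fr, Gm, vec_sum, torC, sub_eq_zero]
  exact ⟨fun h μ => (congrFun (vec_inj h) μ).symm, fun h => congrArg vec (funext fun μ => (h μ).symm)⟩

lemma isCo_gm (U : R4 → Ix → ℝ) (p : R4) : IsCo eta (Gm U) (fun a p => sg (U p) a) p := by
  refine fin4 ?_ ?_ ?_ ?_ <;> refine fin4 ?_ ?_ ?_ ?_ <;> refine fin4 ?_ ?_ ?_ ?_ <;>
    simp only [Gm, Gam, sg, eta, Fin.sum_univ_four, Matrix.cons_val] <;> ring

lemma sm7_of (h : SmU U D) : Sm7 U D := fun i _ => h i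

lemma lc_gm (hD : IsOpen D) (h : SmU U D)
    (ht : ∀ p ∈ D, (∀ x y μ, torC (U p) (dEof (dfr U p)) x y μ = 0) ∧
      ∀ x, dfr U p x O = U p O * sg (U p) x) :
    LC D (fe U) eta (fun p => U p O ^ 2) (fun a p => sg (U p) a) (Gm U) where
  smooth a b c := sm_lin (gam_lin a c b) h
  co p _ := isCo_gm U p
  dw p hp a := by
    have h1 := dd_mul (X := fe U a) (diffAt hD (h O) hp) (diffAt hD (h O) hp)
    have h2 : dd (fe U a) (fun z => U z O) p = U p O * sg (U p) a := (ht p hp).2 a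
    simp only [sq]
    rw [h1, h2]
    ring
  tor p hp := (noTor_iff hD (sm7_of h) hp).2 (ht p hp).1

lemma cur_eq (hD : IsOpen D) (h : SmU U D) {p : R4} (hp : p ∈ D) (j k x y : Fin 4) :
    Cur (fe U) (Gm U) x y k j p = curD (U p) (dfr U p) j k x y + Wy (U p) j k x y := by
  have h1 : ∀ x y, dd (fe U x) (Gm U y k j) p = Gam (dfr U p x) y j k := fun x y =>
    dd_lin (gam_lin y j k) (fun i => diffAt hD (h i) hp) _
  rw [Cur, h1, h1, curD, sub_add_cancel]
  congr 1
  refine Finset.sum_congr rfl fun f _ => ?_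
  simp only [Gm]
  ring

theorem vac : VAC := by
  intro U D hD h hU p hp
  have he := frame_fe hD (sm7_of h) fun p hp => (hU p hp).1
  have hg := isMet_fe (sm7_of h) (fun p hp => (hU p hp).1) fun p hp => (hU p hp).2.1
  have hL := lc_gm hD h fun p hp => (hU p hp).2.2
  obtain ⟨B, K, hS⟩ := exists_sm eta_ok he hg
  have hN : ∀ x ∈ D, Nab (fun y u v => K y u v) (fe U) (Gm U) x := fun x hx =>
    hS.nab eta_ok he hg hx (hL.co x hx) (hL.dw x hx) (hL.tor x hx)
  have hG : ∀ x ∈ D, IsConn (met U) (con U) x := fun x hx a b c => by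
    have := conn_formula he (θ := fun y => th (U y)) (fun y hy => fr_th (hU y hy).1) hx (hN x hx) a b
    rw [show con U x a b = K x a b from this.symm]
    exact hS.isConn hx a b c
  refine ⟨hG p hp, fun k x y d => ?_, fun hF => ?_⟩
  · refine (hS.riem hG hp (fe U x p) (fe U y p) (fe U k p) d).trans ?_
    rw [hS.rc_frame he hL.smooth hN hp, ← hS.val p hp, met]
    simp only [fe, th_fr (hU p hp).1]
    congr 2
    exact funext fun j => cur_eq hD h hp j k x y
  · refine (k3 (Fin 4) D _ eta etai _ _ _ _ _ rfl eta_ok he hg hL hG p hp).2 fun b c => ?_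
    simp only [cur_eq hD h hp, hF.cur, zero_add, P354C.Wy_tr]

end Vale.Agent.P354Q
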