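import Vale.Agent.P354Q.Vac

/-!
The statements DET and CONV.
-/

open scoped ContDiff
open Set Filter Topology

set_option linter.unusedSimpArgs false

namespace Vale.Agent.P354Q

open Vale.Agent.P354n (R4)
open Vale.Agent.P354C (Ix E detP Gam sg Wy asym torC dEof curD Full vec cp fr dfr SmU th met con
  VAC CONV DET lift1 lift2 L1 L2 resN resL Bf BT cf)
open Vale.Agent.P354C.Ix

/-- The Weyl entries. -/
def isW : Ix → Bool
  | .a1 | .a2 | .be1 | .be2 | .rho | .sig | .bb1 | .bb2 | .ab1 | .ab2 => true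
  | _ => false

section alg
variable {U V : Ix → ℝ} {dU dV : Fin 4 → Ix → ℝ}

lemma gam_congr (h : ∀ i, isW i = false → U i = V i) : Gam U = Gam V := by
  funext i
  simp only [Gam, h om rfl, h p1 rfl, h p2 rfl, h omb rfl, h q1 rfl, h q2 rfl, h r0 rfl, h r1 rfl,
    h r2 rfl, h A1 rfl, h A2 rfl, h X11 rfl, h X12 rfl, h X21 rfl, h X22 rfl, h B1 rfl, h B2 rfl,
    h Y11 rfl, h Y12 rfl, h Y21 rfl, h Y22 rfl]

lemma cur_congr (h : ∀ i, isW i = false → U i = V i)
    (h' : ∀ k i, isW i = false → dU k i = dV k i) (j k x y : Fin 4) :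
    curD U dU j k x y + Wy U j k x y = curD V dV j k x y + Wy V j k x y := by
  simp only [curD, sub_add_cancel, gam_congr h, gam_congr (h' _)]

lemma wy_lift1 (j k x y : Fin 4) : Wy (lift1 U dU) j k x y = 0 := by
  have : ∀ x y : Fin 4, asym (0 : ℝ) 0 0 0 0 0 x y = 0 := by
    refine fin4 ?_ ?_ ?_ ?_ <;> refine fin4 ?_ ?_ ?_ ?_ <;> simp [asym]
  revert j k
  refine fin4 ?_ ?_ ?_ ?_ <;> refine fin4 ?_ ?_ ?_ ?_ <;> simp [Wy, lift1, this]

lemma lift2_of (i : Ix) (h : isW i = false) : lift2 U dU i = U i := by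
  cases i <;> first | rfl | exact absurd h (by decide)

/-- The Weyl entries are read off correctly. -/
lemma lift2_wy (h : ∀ j k x y, curD U dU j k x y = Wy V j k x y) (i : Ix) (hi : isW i = true) :
    lift2 U dU i = V i := by
  cases i <;> first
    | exact absurd hi (by decide)
    | (simp only [lift2, h, Wy, asym, Matrix.cons_val]; ring)

lemma br_of_tor (hP : detP U ≠ 0) (ht : ∀ x y μ, torC U (dEof dU) x y μ = 0) (x y : Fin 4) :
    P354C.br U dU x y = fun k => Gam U x k y - Gam U y k x := by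
  rw [← th_fr hP fun k => Gam U x k y - Gam U y k x, P354C.br]
  simp only [fr, vec_sum]
  congr 2
  funext μ
  have := ht x y μ
  rw [torC] at this
  linarith

lemma tor_of_br (hP : detP U ≠ 0) (hE : E V = E U) (hd : dEof dV = dEof dU)
    (h : ∀ x y k, Gam V x k y - Gam V y k x = P354C.br U dU x y k) (x y μ : Fin 4) :
    torC V (dEof dV) x y μ = 0 := by
  have := fr_th hP (vec fun μ => dEof dU x y μ - dEof dU y x μ)
  simp only [fr, vec_sum] at this
  rw [torC, hE, hd, sub_eq_zero, ← congrFun (vec_inj this) μ]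
  simp only [h, P354C.br]

lemma lift1_full (hP : detP U ≠ 0) (hO : U O ≠ 0) (ht : ∀ x y μ, torC U (dEof dU) x y μ = 0)
    (hd : ∀ x, dU x O = U O * sg U x) (i : Ix) (hi : isW i = false) : lift1 U dU i = U i := by
  have hb := br_of_tor hP ht
  have hd' : ∀ x, dU x O / U O = sg U x := fun x => by rw [hd, mul_div_cancel_left₀ _ hO]
  have h01 : ∀ x y, P354C.br U dU x y 0 = 0 ∧ P354C.br U dU x y 1 = 0 := fun x y => by
    revert x y
    refine fin4 ?_ ?_ ?_ ?_ <;> refine fin4 ?_ ?_ ?_ ?_ <;> simp [P354C.br, th, vec, dEof]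
  have h1 := (h01 0 2).1
  have h2 := (h01 0 3).1
  have h3 := (h01 1 2).2
  have h4 := (h01 1 3).2
  have h5 := (h01 2 3).1
  have h6 := (h01 2 3).2
  simp only [hb, Gam, Matrix.cons_val] at h1 h2 h3 h4 h5 h6
  cases i <;> first
    | rfl
    | exact absurd hi (by decide)
    | (simp only [lift1, hd', hb, Gam, sg, Matrix.cons_val] <;> linarith)

lemma gam_lift1 (hg : P354C.br U dU 1 2 3 = P354C.br U dU 1 3 2) (x y k : Fin 4) :
    Gam (lift1 U dU) x k y - Gam (lift1 U dU) y k x = P354C.br U dU x y k := by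
  have h01 : ∀ x y, P354C.br U dU x y 0 = 0 ∧ P354C.br U dU x y 1 = 0 := fun x y => by
    revert x y
    refine fin4 ?_ ?_ ?_ ?_ <;> refine fin4 ?_ ?_ ?_ ?_ <;> simp [P354C.br, th, vec, dEof]
  have ha : ∀ x y k, P354C.br U dU x y k + P354C.br U dU y x k = 0 := fun x y k => by
    have := congrFun ((th_lin U).map_add (vec fun μ => dEof dU x y μ - dEof dU y x μ)
      (vec fun μ => dEof dU y x μ - dEof dU x y μ)) k
    rw [show (vec fun μ => dEof dU x y μ - dEof dU y x μ) +
      (vec fun μ => dEof dU y x μ - dEof dU x y μ) = 0 by simp [vec], (th_lin U).map_zero] at this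
    exact this.symm
  revert x y
  refine anti_ext (fun x y => by ring) (fun x y => ha x y k) ?_ ?_ ?_ ?_ ?_ ?_ <;> revert k <;>
    refine fin4 ?_ ?_ ?_ ?_ <;> simp only [Gam, lift1, Matrix.cons_val, h01] <;>
    linarith [ha 0 1 2, ha 0 1 3]

set_option maxHeartbeats 1000000 in
/-- All equations follow from the structure equations and the second Bianchi identity. -/
lemma full_of (ht : ∀ x y μ, torC U (dEof dU) x y μ = 0) (hd : ∀ x, dU x O = U O * sg U x)
    (hc : ∀ j k x y, curD U dU j k x y = 0) (hB : ∀ j k x y z, Bf U dU j k x y z = 0) :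
    Full U dU := by
  have c := P354C.cur_res U dU
  simp only [hc] at c
  have b0 := fun j k => (P354C.Bf_0 U dU j k).symm.trans (hB _ _ _ _ _)
  have b1 := fun j k => (P354C.Bf_1 U dU j k).symm.trans (hB _ _ _ _ _)
  have b3 := fun j k => (P354C.Bf_3 U dU j k).symm.trans (hB _ _ _ _ _)
  have e1 := b0 0 0
  have e2 := b0 0 2
  have e3 := b0 0 3
  have e4 := b0 1 2
  have e5 := b0 1 3
  have e6 := b0 3 2
  have f1 := b1 0 0
  have f2 := b1 0 2
  have f3 := b1 0 3
  have f4 := b1 1 2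
  have f5 := b1 1 3
  have f6 := b1 3 2
  have g1 := b3 0 2
  have g2 := b3 0 3
  have g3 := b3 1 2
  have g4 := b3 1 3
  simp only [BT, Matrix.cons_val] at e1 e2 e3 e4 e5 e6 f1 f2 f3 f4 f5 f6 g1 g2 g3 g4
  obtain ⟨⟨c1, c2, c3⟩, ⟨c4, c5, c6⟩, ⟨c7, c8, c9⟩, ⟨c10, c11, c12⟩, ⟨c13, c14, c15⟩,
    ⟨c16, c17, c18⟩, c19, c20, c21⟩ := c
  have t0 := hd 1
  have t1 := ht 1 0 2
  have t2 := ht 1 0 3
  have t3 := ht 1 2 2
  have t4 := ht 1 2 3
  have t5 := ht 1 3 2
  have t6 := ht 1 3 3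
  simp only [torC, dEof, E, Gam, sg, Fin.sum_univ_four, Matrix.cons_val] at t0 t1 t2 t3 t4 t5 t6
  refine ⟨ht, hd, hc, fun i => ?_, fun i => ?_⟩ <;> cases i <;> first
    | linarith
    | (simp only [resN, resL, P354C.cN, P354C.cL, P354C.angN, P354C.angL, P354C.linN, P354C.linL,
        P354C.quadN, P354C.quadL, P354C.angS, P354C.linS, P354C.quadS, List.map, List.sum_cons,
        List.sum_nil, Int.cast_ofNat, Int.cast_neg, Int.cast_one, Int.cast_zero]
       linarith)

end alg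

variable {U V : R4 → Ix → ℝ} {D : Set R4}

lemma dfr_congr (hD : IsOpen D) {p : R4} (hp : p ∈ D) (hE : E (U p) = E (V p)) {i : Ix}
    (h : ∀ y ∈ D, U y i = V y i) (k : Fin 4) : dfr U p k i = dfr V p k i := by
  rw [dfr, dfr, fr, fr, hE]
  exact dd_congr hD h (fun _ => vec (E (V p) k)) hp

theorem det : DET := by
  intro U D hD h hU p hp
  have h1 : ∀ y ∈ D, ∀ i, isW i = false → L1 U y i = U y i := fun y hy =>
    lift1_full (hU y hy).1 (hU y hy).2.1 (hU y hy).2.2.tor (hU y hy).2.2.dO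
  funext i
  cases hi : isW i
  · exact (lift2_of i hi).trans (h1 p hp i hi)
  · refine lift2_wy (fun j k x y => ?_) i hi
    have := cur_congr (dU := dfr (L1 U) p) (dV := dfr U p) (h1 p hp)
      (fun k i hi => dfr_congr (U := L1 U) (V := U) hD hp rfl (fun y hy => h1 y hy i hi) k) j k x y
    rwa [(hU p hp).2.2.cur, zero_add, L1, wy_lift1, add_zero] at this

lemma wy_lin (j k x y : Fin 4) : IsLinearMap ℝ fun U : Ix → ℝ => Wy U j k x y := by
  have : ∀ (s t : ℝ) (U V : Ix → ℝ), Wy (s • U + t • V) j k x y =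
      s * Wy U j k x y + t * Wy V j k x y := fun s t U V => by
    revert x y
    refine anti_ext (fun x y => by rw [P354C.Wy_anti _ j k x y, add_neg_cancel])
      (fun x y => by rw [P354C.Wy_anti U j k x y, P354C.Wy_anti V j k x y]; ring)
      ?_ ?_ ?_ ?_ ?_ ?_ <;> revert j k <;>
    refine fin4 ?_ ?_ ?_ ?_ <;> refine fin4 ?_ ?_ ?_ ?_ <;>
    simp only [Wy, asym, Matrix.cons_val, Pi.add_apply, Pi.smul_apply, smul_eq_mul] <;> ring
  exact ⟨fun U V => by simpa using this 1 1 U V, fun c U => by simpa using this c 0 U U⟩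

lemma sm_dfr (hD : IsOpen D) (h : Sm7 U D) (hP : ∀ p ∈ D, detP (U p) ≠ 0) {i : Ix}
    (hi : ContDiffOn ℝ ∞ (fun z => U z i) D) (k : Fin 4) :
    ContDiffOn ℝ ∞ (fun p => dfr U p k i) D :=
  sm_dd hD ((frame_fe hD h hP).smooth k) hi

lemma sm_br (hD : IsOpen D) (h : Sm7 U D) (hP : ∀ p ∈ D, detP (U p) ≠ 0) (x y k : Fin 4) :
    ContDiffOn ℝ ∞ (fun p => P354C.br (U p) (dfr U p) x y k) D := by
  have he := frame_fe hD h hP
  obtain ⟨θ, hs, hθ⟩ := he.coframe
  refine ((hs k).clm_apply ((sm_dV hD (he.smooth x) (he.smooth y)).sub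
    (sm_dV hD (he.smooth y) (he.smooth x)))).congr fun p hp => ?_
  rw [dV_fe hD h hp, dV_fe hD h hp]
  exact he.ext hp ((fr_th (hP p hp) _).trans (hθ p hp _).symm) k

lemma sm_L1 (hD : IsOpen D) (h : Sm7 U D) (hP : ∀ p ∈ D, detP (U p) ≠ 0)
    (hO : ∀ p ∈ D, U p O ≠ 0) : SmU (L1 U) D := by
  have s : ∀ k, ContDiffOn ℝ ∞ (fun p => dfr U p k O / U p O) D := fun k =>
    (sm_dfr hD h hP (h O (by simp)) k).div (h O (by simp)) hO
  have b := sm_br hD h hP
  intro i
  cases i <;> simp only [L1, lift1] <;> first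
    | exact contDiffOn_const
    | exact h _ (by simp)
    | exact s _
    | exact ((s _).div_const _).sub ((b _ _ _).div_const _)
    | exact ((s _).div_const _).add ((b _ _ _).div_const _)
    | exact ((b _ _ _).sub (b _ _ _)).div_const _
    | exact (b _ _ _).neg.sub (s _)
    | exact (s _).sub (b _ _ _)
    | exact (s _).add ((b _ _ _).div_const _)
    | exact (s _).sub ((b _ _ _).div_const _)
    | exact ((s _).sub (b _ _ _)).div_const _
    | exact ((b _ _ _).add (b _ _ _)).neg.div_const _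
    | exact (b _ _ _).neg.div_const _

theorem conv : CONV := by
  intro U D hD h hU
  have hP : ∀ p ∈ D, detP (U p) ≠ 0 := fun p hp => (hU p hp).1
  have hO : ∀ p ∈ D, U p O ≠ 0 := fun p hp => (hU p hp).2.1
  have s1 : SmU (L1 U) D := sm_L1 hD h hP hO
  have he : Frame D (fe (L1 U)) := frame_fe hD (sm7_of s1) hP
  have hc : ∀ p ∈ D, ∀ j k x y, curD (L1 U p) (dfr (L1 U) p) j k x y =
      Cur (fe (L1 U)) (Gm (L1 U)) x y k j p := fun p hp j k x y => by
    rw [cur_eq hD s1 hp, L1, wy_lift1, add_zero]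
  have sc : ∀ j k x y, ContDiffOn ℝ ∞ (fun p => curD (L1 U p) (dfr (L1 U) p) j k x y) D :=
    fun j k x y => (sm_cur he (fun a b c => sm_lin (gam_lin a c b) s1) x y k j).congr
      fun p hp => hc p hp j k x y
  have s2 : SmU (L2 U) D := fun i => by
    cases i <;> simp only [L2, lift2] <;> first
      | exact s1 _
      | exact (sc _ _ _ _).neg
      | exact (sc _ _ _ _).neg.div_const _
      | exact (sc _ _ _ _).div_const _
  have hG : ∀ p, Gam (L2 U p) = Gam (L1 U p) := fun p => gam_congr lift2_of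
  have ht : ∀ p ∈ D, (∀ x y μ, torC (L2 U p) (dEof (dfr (L2 U) p)) x y μ = 0) ∧
      ∀ x, dfr (L2 U) p x O = U p O * sg (L2 U p) x := fun p hp => by
    refine ⟨tor_of_br (dU := dfr U p) (hP p hp) rfl rfl fun x y k => ?_, fun x => ?_⟩
    · rw [hG]
      exact gam_lift1 (hU p hp).2.2 x y k
    · have := hO p hp
      show dfr U p x O = _
      revert x
      refine fin4 ?_ ?_ ?_ ?_ <;> simp only [sg, L2, lift2, L1, lift1, Matrix.cons_val] <;>
        field_simp <;> ring
  refine ⟨s1, s2, rfl, ht, fun G hV p hp => ?_⟩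
  have he2 : Frame D (fe (L2 U)) := he
  have hg : IsMet D (fe (L2 U)) eta (fun p => L2 U p O ^ 2) (met (L2 U)) :=
    isMet_fe (sm7_of s2) hP hO
  have hL := lc_gm hD s2 ht
  have hR : ∀ x ∈ D, ∀ b c, ∑ a, Cur (fe (L2 U)) (Gm (L2 U)) a b c a x = 0 := fun x hx =>
    (k3 (Fin 4) D _ eta etai _ _ _ _ G rfl eta_ok he2 hg hL (fun y hy => (hV y hy).1) x hx).1
      (hV x hx).2
  have hGm : Gm (L2 U) = Gm (L1 U) := by
    funext a b c p
    simp only [Gm, hG]
  have hW : ∀ q ∈ D, ∀ x y k j, Cur (fe (L2 U)) (Gm (L2 U)) x y k j q = Wy (L2 U q) j k x y := by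
    intro q hq x y k j
    obtain ⟨h1, h2, -⟩ := k2 D _ eta _ _ _ eta_ok.symm he2 hg.smooth hg.ne hL q hq
    have h3 := kw _ (fun a b c d => cur_anti _ _ a b c d q) h1 h2 (hR q hq)
    generalize psiRe _ = pp, psiIm _ = qq at h3
    let W : Ix → ℝ := fun i => match i with
      | .a1 => -pp 0 | .be1 => -pp 1 | .rho => -pp 2 | .bb1 => pp 3 | .ab1 => -pp 4
      | .a2 => -qq 0 | .be2 => -qq 1 | .sig => -qq 2 | .bb2 => -qq 3 | .ab2 => qq 4
      | _ => 0
    have hp' : pU W = pp := by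
      funext i
      fin_cases i <;> simp [pU, W]
    have hq' : qU W = qq := by
      funext i
      fin_cases i <;> simp [qU, W]
    have h4 : ∀ i, isW i = true → L2 U q i = W i := lift2_wy fun j k x y => by
      rw [hc q hq, wy_eq, hp', hq', ← h3, hGm]
      rfl
    rw [h3, wy_eq, ← hp', ← hq']
    simp only [pU, qU, h4 a1 rfl, h4 a2 rfl, h4 be1 rfl, h4 be2 rfl, h4 rho rfl, h4 sig rfl,
      h4 bb1 rfl, h4 bb2 rfl, h4 ab1 rfl, h4 ab2 rfl]
  refine full_of (ht p hp).1 (ht p hp).2 (fun j k x y => ?_) fun j k x y z => ?_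
  · have := cur_eq hD s2 hp j k x y
    rw [hW p hp] at this
    linarith
  · have h1 := (k2 D _ eta _ _ _ eta_ok.symm he2 hg.smooth hg.ne hL p hp).2.2 x y z k j
    have h2 : ∀ a b c, dd (fe (L2 U) a) (fun q => Wy (L2 U q) j k b c) p =
        Wy (dfr (L2 U) p a) j k b c := fun a b c =>
      dd_lin (wy_lin j k b c) (fun i => diffAt hD (s2 i) hp) _
    simp only [cov4_congr hD _ _ (R' := fun x y k j q => Wy (L2 U q) j k x y) hW hp] at h1
    simp only [cov4, h2, Gm, Fin.sum_univ_four] at h1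
    simp only [Bf, cf, Fin.sum_univ_four]
    generalize L2 U p = u at *
    simp only [P354C.Wy_anti u j k _ x, P354C.Wy_anti u j k _ y, P354C.Wy_anti u j k _ z] at h1
    linear_combination h1

end Vale.Agent.P354Q
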