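import Vale.Agent.P354Q.Calc

/-!
Frame calculus: the second Bianchi identity, and the identities of Levi-Civita data.
-/

open scoped ContDiff
open Set Filter Topology

namespace Vale.Agent.P354Q

variable {E : Type} [NormedAddCommGroup E] [NormedSpace ℝ E] {ι : Type} [Fintype ι]

lemma bian_alg {M : Type} [Ring M] [Algebra ℝ M] (A : ι → M) (D F : ι → ι → M)
    (DD dF : ι → ι → ι → M) (C : ι → ι → ι → ℝ) (dC : ι → ι → ι → ι → ℝ)
    (hF : ∀ a b, F a b = D a b - D b a + (A b * A a - A a * A b - ∑ f, C a b f • A f))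
    (hdF : ∀ e a b, dF e a b = DD e a b - DD e b a + (D e b * A a + A b * D e a - D e a * A b -
      A a * D e b - ∑ f, dC e a b f • A f - ∑ f, C a b f • D e f))
    (hc : ∀ e a b, DD e a b - DD a e b = ∑ f, C e a f • D f b)
    (ha : ∀ a b f, C a b f = -C b a f)
    (hJ : ∀ a b c d, (dC a b c d + ∑ f, C b c f * C a f d) + (dC b c a d + ∑ f, C c a f * C b f d) +
      (dC c a b d + ∑ f, C a b f * C c f d) = 0) (a b c : ι) :
    (dF a b c + F b c * A a - A a * F b c - ∑ f, C a b f • F f c) +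
      (dF b c a + F c a * A b - A b * F c a - ∑ f, C b c f • F f a) +
      (dF c a b + F a b * A c - A c * F a b - ∑ f, C c a f • F f b) = 0 := by
  have k1 : ∀ a b c, ∑ f, C a b f • F f c = ∑ f, C a b f • D f c - ∑ f, C a b f • D c f +
      (A c * ∑ f, C a b f • A f - (∑ f, C a b f • A f) * A c +
        ∑ d, (∑ f, C a b f * C c f d) • A d) := by
    intro a b c
    simp only [hF, smul_add, smul_sub, Finset.sum_add_distrib, Finset.sum_sub_distrib,
      Finset.mul_sum, Finset.sum_mul, mul_smul_comm, smul_mul_assoc, Finset.sum_smul,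
      Finset.smul_sum, smul_smul]
    rw [Finset.sum_comm (f := fun d f => (C a b f * C c f d) • A d), sub_eq_add_neg _ (∑ _, ∑ _, _),
      ← Finset.sum_neg_distrib]
    congr 2
    refine Finset.sum_congr rfl fun f _ => ?_
    rw [← Finset.sum_neg_distrib]
    refine Finset.sum_congr rfl fun d _ => ?_
    rw [ha f c d, mul_neg, neg_smul, neg_neg]
  have k2 : ∑ f, dC a b c f • A f + ∑ d, (∑ f, C b c f * C a f d) • A d +
      (∑ f, dC b c a f • A f + ∑ d, (∑ f, C c a f * C b f d) • A d) +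
      (∑ f, dC c a b f • A f + ∑ d, (∑ f, C a b f * C c f d) • A d) = 0 := by
    simp only [← Finset.sum_add_distrib, ← add_smul, hJ, zero_smul, Finset.sum_const_zero]
  rw [k1, k1, k1, hdF, hdF, hdF, hF, hF, hF, ← hc, ← hc, ← hc]
  generalize ∑ f, C a b f • A f = X1 at *
  generalize ∑ f, C b c f • A f = X2 at *
  generalize ∑ f, C c a f • A f = X3 at *
  rw [← neg_eq_zero, ← k2]
  noncomm_ring

lemma sm_cur {O : Set E} {e : ι → E → E} (he : Frame O e) {Γ : ι → ι → ι → E → ℝ}
    (hΓ : Sm3 O Γ) (a b c d : ι) : ContDiffOn ℝ ∞ (Cur e Γ a b c d) O :=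
  ((sm_dd he.isOpen (he.smooth a) (hΓ b c d)).sub (sm_dd he.isOpen (he.smooth b) (hΓ a c d))).add
    (ContDiffOn.sum fun f _ => (((hΓ b c f).mul (hΓ a f d)).sub ((hΓ a c f).mul (hΓ b f d))).sub
      (((hΓ a b f).sub (hΓ b a f)).mul (hΓ f c d)))

lemma curT_eq (e : ι → E → E) (Γ T : ι → ι → ι → E → ℝ) (a b c d : ι) (x : E) :
    CurT e Γ T a b c d x = dd (e a) (Γ b c d) x - dd (e b) (Γ a c d) x +
      (∑ f, Γ b c f x * Γ a f d x - ∑ f, Γ a c f x * Γ b f d x -
        ∑ f, (Γ a b f x - Γ b a f x - T a b f x) * Γ f c d x) := by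
  simp only [CurT, Cur, sub_mul, Finset.sum_sub_distrib]
  ring

theorem kb2 [DecidableEq ι] : KB2 E ι := by
  intro O e Γ T he hΓ hT hC x hx a b c d h
  have hO := he.isOpen
  have hs : Sm3 O (fun a b c y => Γ a b c y - Γ b a c y - T a b c y) :=
    fun a b c => ((hΓ a b c).sub (hΓ b a c)).sub (hT a b c)
  have dG : ∀ a b c, DifferentiableAt ℝ (Γ a b c) x := fun a b c => diffAt hO (hΓ a b c) hx
  have dD : ∀ a b c d, DifferentiableAt ℝ (dd (e a) (Γ b c d)) x :=
    fun a b c d => diffAt hO (sm_dd hO (he.smooth a) (hΓ b c d)) hx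
  have dS : ∀ a b c, DifferentiableAt ℝ (fun y => Γ a b c y - Γ b a c y - T a b c y) x :=
    fun a b c => diffAt hO (hs a b c) hx
  have an := str_anti (C := fun a b c y => Γ a b c y - Γ b a c y - T a b c y) he hx (hC x hx)
  have key := bian_alg (M := Matrix ι ι ℝ) (fun a => Matrix.of fun c d => Γ a c d x)
    (fun a b => Matrix.of fun c d => dd (e a) (Γ b c d) x)
    (fun a b => Matrix.of fun c d => CurT e Γ T a b c d x)
    (fun k a b => Matrix.of fun c d => dd (e k) (dd (e a) (Γ b c d)) x)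
    (fun k a b => Matrix.of fun c d => dd (e k) (CurT e Γ T a b c d) x)
    (fun a b c => Γ a b c x - Γ b a c x - T a b c x)
    (fun k a b c => dd (e k) (fun y => Γ a b c y - Γ b a c y - T a b c y) x)
    (fun a b => by
      ext c d
      simp only [Matrix.of_apply, Matrix.add_apply, Matrix.sub_apply, Matrix.mul_apply,
        Matrix.sum_apply, Matrix.smul_apply, smul_eq_mul, curT_eq])
    (fun k a b => by
      ext c d
      simp only [Matrix.of_apply, Matrix.add_apply, Matrix.sub_apply, Matrix.mul_apply,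
        Matrix.sum_apply, Matrix.smul_apply, smul_eq_mul]
      have s1 : ∀ a b, DifferentiableAt ℝ (fun y => ∑ f, Γ b c f y * Γ a f d y) x :=
        fun a b => DifferentiableAt.fun_sum fun f _ => (dG _ _ _).fun_mul (dG _ _ _)
      have s2 : DifferentiableAt ℝ
          (fun y => ∑ f, (Γ a b f y - Γ b a f y - T a b f y) * Γ f c d y) x :=
        DifferentiableAt.fun_sum fun f _ => (dS _ _ _).fun_mul (dG _ _ _)
      rw [funext (curT_eq e Γ T a b c d), dd_add ((dD _ _ _ _).fun_sub (dD _ _ _ _))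
        (((s1 _ _).fun_sub (s1 _ _)).fun_sub s2), dd_sub (dD _ _ _ _) (dD _ _ _ _),
        dd_sub ((s1 _ _).fun_sub (s1 _ _)) s2, dd_sub (s1 _ _) (s1 _ _),
        dd_sum (f := fun f y => Γ b c f y * Γ a f d y) fun f => (dG _ _ _).fun_mul (dG _ _ _),
        dd_sum (f := fun f y => Γ a c f y * Γ b f d y) fun f => (dG _ _ _).fun_mul (dG _ _ _),
        dd_sum (f := fun f y => (Γ a b f y - Γ b a f y - T a b f y) * Γ f c d y)
          fun f => (dS _ _ _).fun_mul (dG _ _ _)]
      simp only [dd_mul (dG _ _ _) (dG _ _ _), dd_mul (dS _ _ _) (dG _ _ _),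
        Finset.sum_add_distrib]
      ring)
    (fun k a b => by
      ext c d
      simp only [Matrix.of_apply, Matrix.sub_apply, Matrix.sum_apply, Matrix.smul_apply,
        smul_eq_mul]
      exact kcomm O e Γ T _ he (hΓ b c d) x hx (hC x hx) k a)
    an (fun a b c d => jacobi he hs hC hx a b c d) a b c
  have key' := congrFun (congrFun key d) h
  simp only [Matrix.of_apply, Matrix.add_apply, Matrix.sub_apply, Matrix.mul_apply,
    Matrix.sum_apply, Matrix.smul_apply, smul_eq_mul, Matrix.zero_apply] at key'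
  have aF : ∀ a b, CurT e Γ T a b d h x = -CurT e Γ T b a d h x := fun a b => by
    have : ∑ f, (Γ a b f x - Γ b a f x - T a b f x) * Γ f d h x =
        -∑ f, (Γ b a f x - Γ a b f x - T b a f x) * Γ f d h x := by
      rw [← Finset.sum_neg_distrib]
      exact Finset.sum_congr rfl fun f _ => by rw [an a b f, neg_mul]
    rw [curT_eq, curT_eq, this]
    ring
  have S : ∀ a b c, ∑ f, (Γ a b f x - Γ b a f x - T a b f x) * CurT e Γ T f c d h x =
      ∑ f, Γ a b f x * CurT e Γ T f c d h x + ∑ f, Γ b a f x * CurT e Γ T c f d h x -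
        ∑ f, T a b f x * CurT e Γ T f c d h x := fun a b c => by
    rw [← Finset.sum_add_distrib, ← Finset.sum_sub_distrib]
    refine Finset.sum_congr rfl fun f _ => ?_
    rw [aF c f]
    ring
  have S2 : ∀ a b c, ∑ f, CurT e Γ T b c d f x * Γ a f h x =
      ∑ f, Γ a f h x * CurT e Γ T b c d f x := fun a b c =>
    Finset.sum_congr rfl fun f _ => mul_comm _ _
  simp only [S, S2] at key'
  simp only [cov4, Finset.sum_add_distrib, Finset.sum_sub_distrib]
  linarith

lemma hasTor_zero {e : ι → E → E} {Γ : ι → ι → ι → E → ℝ} {x : E} (h : NoTor e Γ x) :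
    HasTor e Γ (fun _ _ _ _ => 0) x := by
  intro a b
  simp only [sub_zero]
  exact h a b

lemma curT_zero (e : ι → E → E) (Γ : ι → ι → ι → E → ℝ) :
    CurT e Γ (fun _ _ _ _ => 0) = Cur e Γ := by
  funext a b c d x
  simp [CurT]

lemma LC.sm_phi {O : Set E} {e : ι → E → E} {η : ι → ι → ℝ} {w : E → ℝ} {φ : ι → E → ℝ}
    {Γ : ι → ι → ι → E → ℝ} (h : LC O e η w φ Γ) (he : Frame O e) (hw : ContDiffOn ℝ ∞ w O)
    (hn : ∀ x ∈ O, w x ≠ 0) (a : ι) : ContDiffOn ℝ ∞ (φ a) O := by
  refine (((sm_dd he.isOpen (he.smooth a) hw).div (contDiffOn_const (c := 2) |>.mul hw)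
    fun x hx => mul_ne_zero two_ne_zero (hn x hx))).congr fun x hx => ?_
  have := hn x hx
  show φ a x = dd (e a) w x / (2 * w x)
  rw [h.dw x hx a]
  field_simp

/-- The symmetric part of the curvature of a connection in co(η) is the differential of φ. -/
lemma curT_co {O : Set E} {e : ι → E → E} {η : ι → ι → ℝ} {φ : ι → E → ℝ}
    {Γ T : ι → ι → ι → E → ℝ} (hη : ∀ a b, η a b = η b a) (hO : IsOpen O) (hΓ : Sm3 O Γ)
    (hφ : ∀ a, ContDiffOn ℝ ∞ (φ a) O) (hco : ∀ x ∈ O, IsCo η Γ φ x) {x : E} (hx : x ∈ O)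
    (a b c d : ι) :
    ∑ f, CurT e Γ T a b c f x * η f d + ∑ f, CurT e Γ T a b d f x * η f c =
      2 * (dd (e a) (φ b) x - dd (e b) (φ a) x -
        ∑ f, (Γ a b f x - Γ b a f x - T a b f x) * φ f x) * η c d := by
  have dG : ∀ a b c, DifferentiableAt ℝ (Γ a b c) x := fun a b c => diffAt hO (hΓ a b c) hx
  have h1 : ∀ a b, ∑ f, dd (e a) (Γ b c f) x * η f d + ∑ f, dd (e a) (Γ b d f) x * η f c =
      2 * dd (e a) (φ b) x * η c d := fun a b => by
    have := dd_congr hO (fun y hy => hco y hy b c d) (e a) hx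
    rw [dd_add (DifferentiableAt.fun_sum fun f _ => (dG _ _ _).mul_const _)
      (DifferentiableAt.fun_sum fun f _ => (dG _ _ _).mul_const _),
      dd_sum (f := fun f y => Γ b c f y * η f d) fun f => (dG _ _ _).mul_const _,
      dd_sum (f := fun f y => Γ b d f y * η f c) fun f => (dG _ _ _).mul_const _,
      dd_mul_const ((diffAt hO (hφ b) hx).const_mul _), dd_const_mul (diffAt hO (hφ b) hx)] at this
    simpa only [dd_mul_const (dG _ _ _)] using this
  have h2 : ∀ a b c d, ∑ f, (∑ k, Γ b c k x * Γ a k f x) * η f d =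
      2 * φ a x * ∑ k, Γ b c k x * η k d - ∑ k, ∑ f, Γ b c k x * Γ a d f x * η f k := by
    intro a b c d
    simp only [Finset.sum_mul, Finset.mul_sum]
    rw [Finset.sum_comm, ← Finset.sum_sub_distrib]
    refine Finset.sum_congr rfl fun k _ => ?_
    have := hco x hx a k d
    simp only [mul_assoc, ← Finset.mul_sum]
    linear_combination Γ b c k x * this
  have h3 : ∀ a b c d, ∑ k, ∑ f, Γ b c k x * Γ a d f x * η f k =
      ∑ k, ∑ f, Γ a d k x * Γ b c f x * η f k := by
    intro a b c d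
    rw [Finset.sum_comm]
    refine Finset.sum_congr rfl fun k _ => Finset.sum_congr rfl fun f _ => ?_
    rw [hη k f]
    ring
  have h4 : ∑ f, (∑ k, (Γ a b k x - Γ b a k x - T a b k x) * Γ k c f x) * η f d +
      ∑ f, (∑ k, (Γ a b k x - Γ b a k x - T a b k x) * Γ k d f x) * η f c =
      2 * (∑ f, (Γ a b f x - Γ b a f x - T a b f x) * φ f x) * η c d := by
    simp only [Finset.sum_mul, Finset.mul_sum]
    rw [Finset.sum_comm, Finset.sum_comm (f := fun f k => _ * Γ k d f x * η f c),
      ← Finset.sum_add_distrib]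
    refine Finset.sum_congr rfl fun k _ => ?_
    have := hco x hx k c d
    simp only [mul_assoc, ← Finset.mul_sum]
    linear_combination (Γ a b k x - Γ b a k x - T a b k x) * this
  have h5 := hco x hx a c d
  have h6 := hco x hx b c d
  simp only [curT_eq, add_mul, sub_mul (a := dd _ _ _), sub_mul (a := ∑ _, _),
    sub_mul (a := ∑ _, _ - ∑ _, _), Finset.sum_add_distrib, Finset.sum_sub_distrib, h2]
  rw [h3 a b c d, h3 b a c d]
  linear_combination h1 a b - h1 b a - h4 + 2 * φ a x * h6 - 2 * φ b x * h5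

theorem k2 [DecidableEq ι] : K2 E ι := by
  intro O e η w φ Γ hη he hw hn h x hx
  have hO := he.isOpen
  have h0 : Sm3 O (fun _ _ _ _ => 0 : ι → ι → ι → E → ℝ) := fun _ _ _ => contDiffOn_const
  have hT : ∀ y ∈ O, HasTor e Γ (fun _ _ _ _ => 0) y := fun y hy => hasTor_zero (h.tor y hy)
  refine ⟨fun a b c d => ?_, fun a b c d => ?_, fun a b c d k => ?_⟩
  · have := kb1 O e Γ _ he h.smooth h0 hT x hx a b c d
    simp only [cov3, dd_const, mul_zero, zero_mul, sub_self, add_zero, Finset.sum_const_zero]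
      at this
    exact this.symm
  · have hφ := h.sm_phi he hw hn
    have h1 := curT_co (e := e) (T := fun _ _ _ _ => 0) hη hO h.smooth hφ h.co hx a b c d
    rw [curT_zero] at h1
    have h2 := kcomm O e Γ _ w he hw x hx (hT x hx) a b
    have h3 : ∀ a b, dd (e a) (dd (e b) w) x =
        2 * dd (e a) (φ b) x * w x + 2 * φ b x * (2 * φ a x * w x) := fun a b => by
      rw [dd_congr hO (fun y hy => h.dw y hy b) (e a) hx,
        dd_mul ((diffAt hO (hφ b) hx).const_mul _) (diffAt hO hw hx),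
        dd_const_mul (diffAt hO (hφ b) hx), h.dw x hx]
    have h4 : ∑ f, (Γ a b f x - Γ b a f x - 0) * dd (e f) w x =
        2 * w x * ∑ f, (Γ a b f x - Γ b a f x - 0) * φ f x := by
      rw [Finset.mul_sum]
      refine Finset.sum_congr rfl fun f _ => ?_
      rw [h.dw x hx]
      ring
    rw [h3, h3, h4] at h2
    have h5 : dd (e a) (φ b) x - dd (e b) (φ a) x - ∑ f, (Γ a b f x - Γ b a f x - 0) * φ f x = 0 :=
      mul_left_cancel₀ (mul_ne_zero two_ne_zero (hn x hx)) (by linear_combination h2)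
    rw [h5] at h1
    simp only [low]
    linear_combination h1
  · have := kb2 O e Γ _ he h.smooth h0 hT x hx a b c d k
    rw [curT_zero] at this
    simpa only [zero_mul, add_zero, Finset.sum_const_zero] using this

end Vale.Agent.P354Q
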