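import Vale.Agent.P354Q.Stm

/-!
Frame calculus: rules for derivatives along vector fields, the commutator, the Jacobi identity.
-/

open scoped ContDiff
open Set Filter Topology

namespace Vale.Agent.P354Q

variable {E : Type} [NormedAddCommGroup E] [NormedSpace ℝ E] {ι : Type} [Fintype ι]
variable {V : Type} [NormedAddCommGroup V] [NormedSpace ℝ V]

/-- The derivative of a vector valued function along X. -/
noncomputable def dV (X : E → E) (F : E → V) (x : E) : V := fderiv ℝ F x (X x)

lemma dd_eq_dV (X : E → E) (f : E → ℝ) : dd X f = dV X f := rfl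

lemma br_eq (X Y : E → E) (x : E) : br X Y x = dV X Y x - dV Y X x := rfl

lemma diffAt {O : Set E} (hO : IsOpen O) {F : E → V} (h : ContDiffOn ℝ ∞ F O) {x : E}
    (hx : x ∈ O) : DifferentiableAt ℝ F x :=
  (h.contDiffAt (hO.mem_nhds hx)).differentiableAt (by simp)

lemma sm_fderiv {O : Set E} (hO : IsOpen O) {F : E → V} (h : ContDiffOn ℝ ∞ F O) :
    ContDiffOn ℝ ∞ (fderiv ℝ F) O :=
  h.fderiv_of_isOpen hO (by simp)

lemma sm_dV {O : Set E} (hO : IsOpen O) {X : E → E} {F : E → V} (hX : ContDiffOn ℝ ∞ X O)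
    (h : ContDiffOn ℝ ∞ F O) : ContDiffOn ℝ ∞ (dV X F) O :=
  (sm_fderiv hO h).clm_apply hX

lemma sm_dd {O : Set E} (hO : IsOpen O) {X : E → E} {f : E → ℝ} (hX : ContDiffOn ℝ ∞ X O)
    (h : ContDiffOn ℝ ∞ f O) : ContDiffOn ℝ ∞ (dd X f) O := sm_dV hO hX h

lemma dV_congr {O : Set E} (hO : IsOpen O) {F F' : E → V} (h : ∀ y ∈ O, F y = F' y) (X : E → E)
    {x : E} (hx : x ∈ O) : dV X F x = dV X F' x := by
  unfold dV
  rw [Filter.EventuallyEq.fderiv_eq (f₁ := F) (f := F')
    (Filter.mem_of_superset (hO.mem_nhds hx) h)]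

lemma dd_congr {O : Set E} (hO : IsOpen O) {f f' : E → ℝ} (h : ∀ y ∈ O, f y = f' y) (X : E → E)
    {x : E} (hx : x ∈ O) : dd X f x = dd X f' x := dV_congr hO h X hx

section Rules
variable {X : E → E} {x : E}

lemma dV_add {F F' : E → V} (h : DifferentiableAt ℝ F x) (h' : DifferentiableAt ℝ F' x) :
    dV X (fun y => F y + F' y) x = dV X F x + dV X F' x := by
  unfold dV
  rw [fderiv_fun_add h h']; rfl

lemma dV_sub {F F' : E → V} (h : DifferentiableAt ℝ F x) (h' : DifferentiableAt ℝ F' x) :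
    dV X (fun y => F y - F' y) x = dV X F x - dV X F' x := by
  unfold dV
  rw [fderiv_fun_sub h h']; rfl

lemma dV_sum {κ : Type} [Fintype κ] {F : κ → E → V} (h : ∀ i, DifferentiableAt ℝ (F i) x) :
    dV X (fun y => ∑ i, F i y) x = ∑ i, dV X (F i) x := by
  unfold dV
  rw [fderiv_fun_sum fun i _ => h i, sum_apply]

lemma dV_smul {f : E → ℝ} {F : E → V} (h : DifferentiableAt ℝ f x)
    (h' : DifferentiableAt ℝ F x) :
    dV X (fun y => f y • F y) x = dd X f x • F x + f x • dV X F x := by
  unfold dV dd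
  rw [fderiv_fun_smul h h']
  simp only [add_apply, smul_apply,
    ContinuousLinearMap.smulRight_apply]
  rw [add_comm]

lemma dd_add {f f' : E → ℝ} (h : DifferentiableAt ℝ f x) (h' : DifferentiableAt ℝ f' x) :
    dd X (fun y => f y + f' y) x = dd X f x + dd X f' x := dV_add h h'

lemma dd_sub {f f' : E → ℝ} (h : DifferentiableAt ℝ f x) (h' : DifferentiableAt ℝ f' x) :
    dd X (fun y => f y - f' y) x = dd X f x - dd X f' x := dV_sub h h'

lemma dd_sum {κ : Type} [Fintype κ] {f : κ → E → ℝ} (h : ∀ i, DifferentiableAt ℝ (f i) x) :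
    dd X (fun y => ∑ i, f i y) x = ∑ i, dd X (f i) x := dV_sum h

lemma dd_mul {f f' : E → ℝ} (h : DifferentiableAt ℝ f x) (h' : DifferentiableAt ℝ f' x) :
    dd X (fun y => f y * f' y) x = dd X f x * f' x + f x * dd X f' x := dV_smul h h'

lemma dd_const (c : ℝ) : dd X (fun _ => c) x = 0 := by
  unfold dd
  simp

lemma dd_mul_const {f : E → ℝ} (h : DifferentiableAt ℝ f x) (c : ℝ) :
    dd X (fun y => f y * c) x = dd X f x * c := by
  rw [dd_mul h (differentiableAt_const c), dd_const]; ring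

lemma dd_const_mul {f : E → ℝ} (h : DifferentiableAt ℝ f x) (c : ℝ) :
    dd X (fun y => c * f y) x = c * dd X f x := by
  rw [dd_mul (differentiableAt_const c) h, dd_const]; ring

lemma dd_neg {f : E → ℝ} : dd X (fun y => -f y) x = -dd X f x := by
  unfold dd
  rw [fderiv_fun_neg]; rfl

end Rules

/-- The commutator of two derivatives is the derivative along the bracket. -/
lemma dV_comm {O : Set E} (hO : IsOpen O) {X Y : E → E} {F : E → V} (hX : ContDiffOn ℝ ∞ X O)
    (hY : ContDiffOn ℝ ∞ Y O) (hF : ContDiffOn ℝ ∞ F O) {x : E} (hx : x ∈ O) :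
    dV X (dV Y F) x - dV Y (dV X F) x = fderiv ℝ F x (br X Y x) := by
  have h1 : DifferentiableAt ℝ (fderiv ℝ F) x := diffAt hO (sm_fderiv hO hF) hx
  have key : ∀ X Y : E → E, DifferentiableAt ℝ Y x → dV X (dV Y F) x =
      fderiv ℝ (fderiv ℝ F) x (X x) (Y x) + fderiv ℝ F x (fderiv ℝ Y x (X x)) := by
    intro X Y hY
    show fderiv ℝ (fun y => fderiv ℝ F y (Y y)) x (X x) = _
    rw [fderiv_clm_apply h1 hY]
    simp only [add_apply, ContinuousLinearMap.comp_apply,
      ContinuousLinearMap.flip_apply]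
    rw [add_comm]
  have hs : IsSymmSndFDerivAt ℝ F x :=
    (hF.contDiffAt (hO.mem_nhds hx)).isSymmSndFDerivAt
      (by rw [minSmoothness_of_isRCLikeNormedField]; exact WithTop.coe_le_coe.2 le_top)
  rw [key X Y (diffAt hO hY hx), key Y X (diffAt hO hX hx), hs (X x) (Y x), br, map_sub]
  abel

lemma fderiv_frame {e : ι → E → E} {x : E} (F : E → V) (c : ι → ℝ) :
    fderiv ℝ F x (∑ a, c a • e a x) = ∑ a, c a • dV (e a) F x := by
  rw [map_sum]
  simp only [map_smul, dV]

theorem kcomm [DecidableEq ι] : KComm E ι := by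
  intro O e Γ T f he hf x hx hT a b
  have := dV_comm he.isOpen (he.smooth a) (he.smooth b) hf hx
  rw [hT a b, fderiv_frame] at this
  exact this

lemma Frame.ext {O : Set E} {e : ι → E → E} (he : Frame O e) {x : E} (hx : x ∈ O)
    {c c' : ι → ℝ} (h : ∑ a, c a • e a x = ∑ a, c' a • e a x) (a : ι) : c a = c' a := by
  have := he.indep x hx (fun a => c a - c' a) (by
    simp only [sub_smul, Finset.sum_sub_distrib, h, sub_self]) a
  linarith

lemma br_anti (X Y : E → E) (x : E) : br X Y x = -br Y X x := by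
  unfold br; abel

/-- The structure functions are antisymmetric. -/
lemma str_anti {O : Set E} {e : ι → E → E} (he : Frame O e) {C : ι → ι → ι → E → ℝ} {x : E}
    (hx : x ∈ O) (hC : ∀ a b, br (e a) (e b) x = ∑ c, C a b c x • e c x) (a b c : ι) :
    C a b c x = -C b a c x := by
  refine he.ext hx (c := fun c => C a b c x) (c' := fun c => -C b a c x) ?_ c
  rw [← hC, br_anti, hC]
  simp only [neg_smul, Finset.sum_neg_distrib]

/-- The Jacobi identity in terms of the structure functions. -/
lemma jacobi {O : Set E} {e : ι → E → E} (he : Frame O e) {C : ι → ι → ι → E → ℝ}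
    (hs : Sm3 O C) (hC : ∀ x ∈ O, ∀ a b, br (e a) (e b) x = ∑ c, C a b c x • e c x) {x : E}
    (hx : x ∈ O) (a b c d : ι) :
    (dd (e a) (C b c d) x + ∑ f, C b c f x * C a f d x) +
      (dd (e b) (C c a d) x + ∑ f, C c a f x * C b f d x) +
      (dd (e c) (C a b d) x + ∑ f, C a b f x * C c f d x) = 0 := by
  have hO := he.isOpen
  have key : ∀ a b c, ∑ d, (dd (e a) (C b c d) x + ∑ f, C b c f x * C a f d x) • e d x =
      dV (e a) (dV (e b) (e c)) x - dV (e a) (dV (e c) (e b)) x -
        (dV (e b) (dV (e c) (e a)) x - dV (e c) (dV (e b) (e a)) x) := by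
    intro a b c
    rw [dV_comm hO (he.smooth b) (he.smooth c) (he.smooth a) hx, hC x hx, fderiv_frame,
      ← dV_sub (diffAt hO (sm_dV hO (he.smooth b) (he.smooth c)) hx)
        (diffAt hO (sm_dV hO (he.smooth c) (he.smooth b)) hx),
      dV_congr hO (F := fun y => dV (e b) (e c) y - dV (e c) (e b) y)
        (F' := fun y => ∑ d, C b c d y • e d y) (fun y hy => hC y hy b c) _ hx,
      dV_sum (F := fun d y => C b c d y • e d y)
        fun d => (diffAt hO (hs b c d) hx).smul (diffAt hO (he.smooth d) hx)]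
    simp only [dV_smul (diffAt hO (hs b c _) hx) (diffAt hO (he.smooth _) hx), add_smul,
      Finset.sum_add_distrib, Finset.sum_smul]
    rw [Finset.sum_comm, add_sub_assoc, ← Finset.sum_sub_distrib]
    congr 1
    refine Finset.sum_congr rfl fun f _ => ?_
    rw [← smul_sub, ← br_eq, hC x hx, Finset.smul_sum]
    simp only [smul_smul]
  refine he.indep x hx (fun d => (dd (e a) (C b c d) x + ∑ f, C b c f x * C a f d x) +
      (dd (e b) (C c a d) x + ∑ f, C c a f x * C b f d x) +
      (dd (e c) (C a b d) x + ∑ f, C a b f x * C c f d x)) ?_ d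
  rw [Finset.sum_congr rfl fun d _ => by rw [add_smul, add_smul], Finset.sum_add_distrib,
    Finset.sum_add_distrib, key, key, key]
  abel

omit [NormedAddCommGroup E] [NormedSpace ℝ E] in
theorem k1u [DecidableEq ι] : K1u E ι := by
  intro η ηi φ Γ x C hη hco hC a b c
  have h1 := hco a b c
  have h2 := hco b c a
  have h3 := hco c a b
  simp only [← hC, sub_mul, Finset.sum_sub_distrib]
  rw [hη.symm c a] at h2
  linarith

theorem kb1 [DecidableEq ι] : KB1 E ι := by
  intro O e Γ T he hΓ hT hC x hx a b c d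
  have hO := he.isOpen
  have hs : Sm3 O (fun a b c y => Γ a b c y - Γ b a c y - T a b c y) :=
    fun a b c => ((hΓ a b c).sub (hΓ b a c)).sub (hT a b c)
  have J := jacobi he hs hC hx a b c d
  have an : ∀ a b c, T a b c x = -T b a c x := fun a b c => by
    have := str_anti (C := fun a b c y => Γ a b c y - Γ b a c y - T a b c y) he hx (hC x hx) a b c
    linarith
  have dC : ∀ a b c d, dd (e a) (fun y => Γ b c d y - Γ c b d y - T b c d y) x =
      dd (e a) (Γ b c d) x - dd (e a) (Γ c b d) x - dd (e a) (T b c d) x := fun a b c d => by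
    rw [dd_sub ((diffAt hO (hΓ _ _ _) hx).fun_sub (diffAt hO (hΓ _ _ _) hx))
      (diffAt hO (hT _ _ _) hx),
      dd_sub (diffAt hO (hΓ _ _ _) hx) (diffAt hO (hΓ _ _ _) hx)]
  simp only [dC] at J
  have S : ∑ f, ((Γ a f d x * T b c f x - Γ a b f x * T f c d x - Γ a c f x * T b f d x) +
      (Γ b f d x * T c a f x - Γ b c f x * T f a d x - Γ b a f x * T c f d x) +
      (Γ c f d x * T a b f x - Γ c a f x * T f b d x - Γ c b f x * T a f d x) +
      (T a b f x * (T f c d x - Γ f c d x) + T b c f x * (T f a d x - Γ f a d x) +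
        T c a f x * (T f b d x - Γ f b d x)) -
      (Γ b c f x * Γ a f d x - Γ a c f x * Γ b f d x - (Γ a b f x - Γ b a f x) * Γ f c d x) -
      (Γ c a f x * Γ b f d x - Γ b a f x * Γ c f d x - (Γ b c f x - Γ c b f x) * Γ f a d x) -
      (Γ a b f x * Γ c f d x - Γ c b f x * Γ a f d x - (Γ c a f x - Γ a c f x) * Γ f b d x) +
      (Γ b c f x - Γ c b f x - T b c f x) * (Γ a f d x - Γ f a d x - T a f d x) +
      (Γ c a f x - Γ a c f x - T c a f x) * (Γ b f d x - Γ f b d x - T b f d x) +
      (Γ a b f x - Γ b a f x - T a b f x) * (Γ c f d x - Γ f c d x - T c f d x)) = 0 := by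
    refine Finset.sum_eq_zero fun f _ => ?_
    rw [an f a d, an f b d, an f c d]
    ring
  simp only [cov3, Cur, Finset.sum_add_distrib, Finset.sum_sub_distrib] at S J ⊢
  linarith

end Vale.Agent.P354Q
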