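import Vale.Agent.P354.H251.DefsN

/-!
Frame calculus: definitions and the statements K1, K2, K3.
-/

open scoped ContDiff
open Set Filter Topology

namespace Vale.Agent.P354Q

section Generic

variable {E : Type} [NormedAddCommGroup E] [NormedSpace ℝ E] {ι : Type} [Fintype ι]

/-- The definitions of P354n on a general space (the same terms for E = R4). -/
def IsConn (g : E → E → E → ℝ) (G : E → E → E → E) (x : E) : Prop :=
  ∀ a b c, 2 * g x (G x a b) c =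
    lineDeriv ℝ (fun y => g y b c) x a + lineDeriv ℝ (fun y => g y a c) x b -
      lineDeriv ℝ (fun y => g y a b) x c

noncomputable def Riem (g : E → E → E → ℝ) (G : E → E → E → E) (x a b c d : E) : ℝ :=
  lineDeriv ℝ (fun y => g y (G y b c) d) x a - lineDeriv ℝ (fun y => g y (G y a c) d) x b -
    g x (G x b c) (G x a d) + g x (G x a c) (G x b d)

/-- The Ricci curvature vanishes at x (the form used in P354n.IsVacuum, with κ = Fin 4). -/
def RicZero (κ : Type) [Fintype κ] [DecidableEq κ] (g : E → E → E → ℝ) (G : E → E → E → E)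
    (x : E) : Prop :=
  ∃ V V' : κ → E, (∀ i j, g x (V i) (V' j) = if i = j then 1 else 0) ∧
    ∀ b c, ∑ i, Riem g G x (V i) b c (V' i) = 0

/-- The derivative of f along the vector field X. -/
noncomputable def dd (X : E → E) (f : E → ℝ) (x : E) : ℝ := fderiv ℝ f x (X x)

/-- The bracket of two vector fields. -/
noncomputable def br (X Y : E → E) (x : E) : E := fderiv ℝ Y x (X x) - fderiv ℝ X x (Y x)

/-- A smooth frame on the open set O. -/
structure Frame (O : Set E) (e : ι → E → E) : Prop where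
  isOpen : IsOpen O
  smooth : ∀ a, ContDiffOn ℝ ∞ (e a) O
  indep : ∀ x ∈ O, ∀ c : ι → ℝ, ∑ a, c a • e a x = 0 → ∀ a, c a = 0
  span : ∀ x ∈ O, ∀ v, ∃ c : ι → ℝ, v = ∑ a, c a • e a x

/-- The constant symmetric matrix η has the inverse ηi. -/
structure Eta [DecidableEq ι] (η ηi : ι → ι → ℝ) : Prop where
  symm : ∀ a b, η a b = η b a
  symm' : ∀ a b, ηi a b = ηi b a
  inv : ∀ a b, ∑ c, η a c * ηi c b = if a = b then 1 else 0

/-- g is a field of symmetric bilinear forms with g(e a, e b) = w η a b, w smooth and not zero. -/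
structure IsMet (O : Set E) (e : ι → E → E) (η : ι → ι → ℝ) (w : E → ℝ) (g : E → E → E → ℝ) :
    Prop where
  lin : ∀ x ∈ O, ∀ v, IsLinearMap ℝ (g x v)
  symm : ∀ x ∈ O, ∀ u v, g x u v = g x v u
  val : ∀ x ∈ O, ∀ a b, g x (e a x) (e b x) = w x * η a b
  smooth : ContDiffOn ℝ ∞ w O
  ne : ∀ x ∈ O, w x ≠ 0

/-- All components are smooth on O. -/
def Sm3 (O : Set E) (Γ : ι → ι → ι → E → ℝ) : Prop := ∀ a b c, ContDiffOn ℝ ∞ (Γ a b c) O

/-- The covariant derivative of e b in the direction e a is the sum of Γ a b c e c. -/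
def Nab (G : E → E → E → E) (e : ι → E → E) (Γ : ι → ι → ι → E → ℝ) (x : E) : Prop :=
  ∀ a b, fderiv ℝ (e b) x (e a x) + G x (e a x) (e b x) = ∑ c, Γ a b c x • e c x

/-- Each Γ a is in co(η), with trace part φ a. -/
def IsCo (η : ι → ι → ℝ) (Γ : ι → ι → ι → E → ℝ) (φ : ι → E → ℝ) (x : E) : Prop :=
  ∀ a b c, ∑ d, Γ a b d x * η d c + ∑ d, Γ a c d x * η d b = 2 * φ a x * η b c

/-- The torsion of Γ has the components T. -/
def HasTor (e : ι → E → E) (Γ T : ι → ι → ι → E → ℝ) (x : E) : Prop :=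
  ∀ a b, br (e a) (e b) x = ∑ c, (Γ a b c x - Γ b a c x - T a b c x) • e c x

/-- Γ has no torsion. -/
def NoTor (e : ι → E → E) (Γ : ι → ι → ι → E → ℝ) (x : E) : Prop :=
  ∀ a b, br (e a) (e b) x = ∑ c, (Γ a b c x - Γ b a c x) • e c x

/-- The curvature R(e a, e b) e c = sum of Cur a b c d e d, with the brackets written as
Γ a b - Γ b a. -/
noncomputable def Cur (e : ι → E → E) (Γ : ι → ι → ι → E → ℝ) (a b c d : ι) (x : E) : ℝ :=
  dd (e a) (Γ b c d) x - dd (e b) (Γ a c d) x +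
    ∑ f, (Γ b c f x * Γ a f d x - Γ a c f x * Γ b f d x - (Γ a b f x - Γ b a f x) * Γ f c d x)

/-- The covariant derivative of a tensor with two lower indices and one upper index. -/
noncomputable def cov3 (e : ι → E → E) (Γ T : ι → ι → ι → E → ℝ) (a b c d : ι) (x : E) : ℝ :=
  dd (e a) (T b c d) x +
    ∑ f, (Γ a f d x * T b c f x - Γ a b f x * T f c d x - Γ a c f x * T b f d x)

/-- The covariant derivative of a tensor with three lower indices and one upper index. -/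
noncomputable def cov4 (e : ι → E → E) (Γ : ι → ι → ι → E → ℝ) (R : ι → ι → ι → ι → E → ℝ)
    (a b c d h : ι) (x : E) : ℝ :=
  dd (e a) (R b c d h) x + ∑ f, (Γ a f h x * R b c d f x - Γ a b f x * R f c d h x -
    Γ a c f x * R b f d h x - Γ a d f x * R b c f h x)

/-- The Levi-Civita data in a frame: Γ is smooth, in co(η) with trace part φ, without torsion,
and 2 φ is the logarithmic derivative of w. -/
structure LC (O : Set E) (e : ι → E → E) (η : ι → ι → ℝ) (w : E → ℝ) (φ : ι → E → ℝ)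
    (Γ : ι → ι → ι → E → ℝ) : Prop where
  smooth : Sm3 O Γ
  co : ∀ x ∈ O, IsCo η Γ φ x
  dw : ∀ x ∈ O, ∀ a, dd (e a) w x = 2 * φ a x * w x
  tor : ∀ x ∈ O, NoTor e Γ x

/-- Lowering the last index. -/
def low (η : ι → ι → ℝ) (R : ι → ι → ι → ι → ℝ) (a b c d : ι) : ℝ := ∑ f, R a b c f * η f d

end Generic

/-- The null frame: 0 = l, 1 = n, 2 and 3 angular. -/
def eta : Fin 4 → Fin 4 → ℝ := ![![0, -2, 0, 0], ![-2, 0, 0, 0], ![0, 0, 1, 0], ![0, 0, 0, 1]]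

noncomputable def etai : Fin 4 → Fin 4 → ℝ :=
  ![![0, -1 / 2, 0, 0], ![-1 / 2, 0, 0, 0], ![0, 0, 1, 0], ![0, 0, 0, 1]]

/-- The Weyl tensor (all indices down) with Psi k = p k + i q k, where with m = e2 + i e3,
4 Psi0 = W(l,m,l,m), 4 Psi1 = W(l,n,l,m), 4 Psi2 = W(l,m,m*,n), 4 Psi3 = W(l,n,m*,n),
4 Psi4 = W(n,m*,n,m*). -/
def Weyl (p q : Fin 5 → ℝ) : Fin 4 → Fin 4 → Fin 4 → Fin 4 → ℝ :=
  ![![![![0, 0, 0, 0],
      ![0, 0, 0, 0],
      ![0, 0, 0, 0],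
      ![0, 0, 0, 0]],
    ![![0, 8 * p 2, 4 * p 1, 4 * q 1],
      ![-8 * p 2, 0, -4 * p 3, 4 * q 3],
      ![-4 * p 1, 4 * p 3, 0, 4 * q 2],
      ![-4 * q 1, -4 * q 3, -4 * q 2, 0]],
    ![![0, 4 * p 1, 2 * p 0, 2 * q 0],
      ![-4 * p 1, 0, -2 * p 2, 2 * q 2],
      ![-2 * p 0, 2 * p 2, 0, 2 * q 1],
      ![-2 * q 0, -2 * q 2, -2 * q 1, 0]],
    ![![0, 4 * q 1, 2 * q 0, -2 * p 0],
      ![-4 * q 1, 0, -2 * q 2, -2 * p 2],
      ![-2 * q 0, 2 * q 2, 0, -2 * p 1],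
      ![2 * p 0, 2 * p 2, 2 * p 1, 0]]],
   ![![![0, -8 * p 2, -4 * p 1, -4 * q 1],
      ![8 * p 2, 0, 4 * p 3, -4 * q 3],
      ![4 * p 1, -4 * p 3, 0, -4 * q 2],
      ![4 * q 1, 4 * q 3, 4 * q 2, 0]],
    ![![0, 0, 0, 0],
      ![0, 0, 0, 0],
      ![0, 0, 0, 0],
      ![0, 0, 0, 0]],
    ![![0, -4 * p 3, -2 * p 2, -2 * q 2],
      ![4 * p 3, 0, 2 * p 4, -2 * q 4],
      ![2 * p 2, -2 * p 4, 0, -2 * q 3],
      ![2 * q 2, 2 * q 4, 2 * q 3, 0]],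
    ![![0, 4 * q 3, 2 * q 2, -2 * p 2],
      ![-4 * q 3, 0, -2 * q 4, -2 * p 4],
      ![-2 * q 2, 2 * q 4, 0, -2 * p 3],
      ![2 * p 2, 2 * p 4, 2 * p 3, 0]]],
   ![![![0, -4 * p 1, -2 * p 0, -2 * q 0],
      ![4 * p 1, 0, 2 * p 2, -2 * q 2],
      ![2 * p 0, -2 * p 2, 0, -2 * q 1],
      ![2 * q 0, 2 * q 2, 2 * q 1, 0]],
    ![![0, 4 * p 3, 2 * p 2, 2 * q 2],
      ![-4 * p 3, 0, -2 * p 4, 2 * q 4],
      ![-2 * p 2, 2 * p 4, 0, 2 * q 3],
      ![-2 * q 2, -2 * q 4, -2 * q 3, 0]],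
    ![![0, 0, 0, 0],
      ![0, 0, 0, 0],
      ![0, 0, 0, 0],
      ![0, 0, 0, 0]],
    ![![0, 4 * q 2, 2 * q 1, -2 * p 1],
      ![-4 * q 2, 0, -2 * q 3, -2 * p 3],
      ![-2 * q 1, 2 * q 3, 0, -2 * p 2],
      ![2 * p 1, 2 * p 3, 2 * p 2, 0]]],
   ![![![0, -4 * q 1, -2 * q 0, 2 * p 0],
      ![4 * q 1, 0, 2 * q 2, 2 * p 2],
      ![2 * q 0, -2 * q 2, 0, 2 * p 1],
      ![-2 * p 0, -2 * p 2, -2 * p 1, 0]],
    ![![0, -4 * q 3, -2 * q 2, 2 * p 2],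
      ![4 * q 3, 0, 2 * q 4, 2 * p 4],
      ![2 * q 2, -2 * q 4, 0, 2 * p 3],
      ![-2 * p 2, -2 * p 4, -2 * p 3, 0]],
    ![![0, -4 * q 2, -2 * q 1, 2 * p 1],
      ![4 * q 2, 0, 2 * q 3, 2 * p 3],
      ![2 * q 1, -2 * q 3, 0, 2 * p 2],
      ![-2 * p 1, -2 * p 3, -2 * p 2, 0]],
    ![![0, 0, 0, 0],
      ![0, 0, 0, 0],
      ![0, 0, 0, 0],
      ![0, 0, 0, 0]]]]

/-- The Weyl tensor with the last index up. -/
noncomputable def WeylU (p q : Fin 5 → ℝ) (a b c d : Fin 4) : ℝ := low etai (Weyl p q) a b c d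

/-- The real and imaginary parts of Psi k, read from a tensor with all indices down. -/
noncomputable def psiRe (R : Fin 4 → Fin 4 → Fin 4 → Fin 4 → ℝ) : Fin 5 → ℝ :=
  ![R 0 2 0 2 / 2, R 0 1 0 2 / 4, R 0 1 0 1 / 8, -R 0 1 1 2 / 4, R 1 2 1 2 / 2]

noncomputable def psiIm (R : Fin 4 → Fin 4 → Fin 4 → Fin 4 → ℝ) : Fin 5 → ℝ :=
  ![R 0 2 0 3 / 2, R 0 1 0 3 / 4, R 0 1 2 3 / 4, R 0 1 1 3 / 4, -R 1 2 1 3 / 2]

end Vale.Agent.P354Q
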