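import Vale.Agent.P354Q.Met

/-!
Frame calculus: K1 and K3.
-/

open scoped ContDiff
open Set Filter Topology

set_option maxSynthPendingDepth 3

namespace Vale.Agent.P354Q

variable {E : Type} [NormedAddCommGroup E] [NormedSpace ℝ E] {ι : Type} [Fintype ι]
variable {O : Set E} {g : E → E → E → ℝ} {B : E → E →L[ℝ] E →L[ℝ] ℝ}
  {K : E → E →L[ℝ] E →L[ℝ] E} {e : ι → E → E} {η ηi : ι → ι → ℝ} {w : E → ℝ}

lemma eta_cancel [DecidableEq ι] (hη : Eta η ηi) {c c' : ι → ℝ}
    (h : ∀ b, ∑ a, c a * η a b = ∑ a, c' a * η a b) (a : ι) : c a = c' a := by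
  have key : ∀ c : ι → ℝ, ∑ b, (∑ a, c a * η a b) * ηi b a = c a := fun c => by
    simp only [Finset.sum_mul]
    rw [Finset.sum_comm]
    simp only [mul_assoc, ← Finset.mul_sum, hη.inv, mul_ite, mul_one, mul_zero,
      Finset.sum_ite_eq', Finset.mem_univ, if_true]
  rw [← key c, ← key c']
  simp only [h]

lemma Sm.frame_val (h : Sm O g B K) (hg : IsMet O e η w g) {x : E} (hx : x ∈ O) (c : ι → ℝ)
    (b : ι) : B x (∑ a, c a • e a x) (e b x) = w x * ∑ a, c a * η a b := by
  simp only [map_sum, map_smul, sum_apply, smul_apply, smul_eq_mul, ← h.val x hx, hg.val x hx,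
    Finset.mul_sum]
  exact Finset.sum_congr rfl fun a _ => by ring

/-- The coefficients of the Levi-Civita connection have no torsion and are in co(η). -/
lemma Sm.of_nab (h : Sm O g B K) (he : Frame O e) (hg : IsMet O e η w g)
    {Γ : ι → ι → ι → E → ℝ} {x : E} (hx : x ∈ O) (hN : Nab (fun y u v => K y u v) e Γ x) :
    NoTor e Γ x ∧ IsCo η Γ (fun a x => dd (e a) w x / (2 * w x)) x := by
  have hO := he.isOpen
  refine ⟨fun a b => ?_, fun a b c => ?_⟩
  · simp only [sub_smul, Finset.sum_sub_distrib, ← hN a b, ← hN b a, h.ksymm hx (e b x) (e a x), br]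
    abel
  · have h1 := dd_congr hO (f := fun y => B y (e b y) (e c y)) (f' := fun y => w y * η b c)
      (fun y hy => by rw [← h.val y hy, hg.val y hy]) (e a) hx
    rw [dd_mul_const (diffAt hO hg.smooth hx)] at h1
    have h2 := (((diffAt hO h.sB hx).hasFDerivAt.clm_apply
      (diffAt hO (he.smooth b) hx).hasFDerivAt).clm_apply
        (diffAt hO (he.smooth c) hx).hasFDerivAt).fderiv
    have h3 : dd (e a) (fun y => B y (e b y) (e c y)) x =
        B x (∑ d, Γ a b d x • e d x) (e c x) + B x (∑ d, Γ a c d x • e d x) (e b x) := by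
      rw [dd, h2, ← hN a b, ← hN a c, h.symm x hx _ (e b x)]
      simp only [add_apply, ContinuousLinearMap.comp_apply, ContinuousLinearMap.flip_apply, map_add,
        h.compat hx]
      ring
    rw [h3, h.frame_val hg hx, h.frame_val hg hx] at h1
    have hw := hg.ne x hx
    field_simp
    linear_combination h1

lemma Sm.nab [DecidableEq ι] (h : Sm O g B K) (hη : Eta η ηi) (he : Frame O e)
    (hg : IsMet O e η w g) {φ : ι → E → ℝ} {Γ : ι → ι → ι → E → ℝ} {x : E} (hx : x ∈ O)
    (hco : IsCo η Γ φ x) (hdw : ∀ a, dd (e a) w x = 2 * φ a x * w x) (ht : NoTor e Γ x) :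
    Nab (fun y u v => K y u v) e Γ x := by
  choose c hc using fun a b => he.span x hx (fderiv ℝ (e b) x (e a x) + K x (e a x) (e b x))
  obtain ⟨h1, h2⟩ := h.of_nab he hg (Γ := fun a b d _ => c a b d) hx hc
  have hφ : ∀ a, dd (e a) w x / (2 * w x) = φ a x := fun a => by
    have hw := hg.ne x hx
    rw [hdw]
    field_simp
  have h3 := k1u η ηi _ _ x _ hη h2 fun _ _ _ => rfl
  have h4 := k1u η ηi _ _ x (fun a b d => c a b d - c b a d) hη hco fun a b =>
    he.ext hx ((ht a b).symm.trans (h1 a b))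
  intro a b
  rw [hc a b]
  refine Finset.sum_congr rfl fun d _ => ?_
  rw [eta_cancel hη (c := c a b) (c' := fun d => Γ a b d x) (fun k => by
    rw [h3, h4, hφ, hφ, hφ]) d]

/-- The curvature operator on the frame. -/
lemma Sm.rc_frame (h : Sm O g B K) (he : Frame O e) {Γ : ι → ι → ι → E → ℝ} (hΓ : Sm3 O Γ)
    (hN : ∀ x ∈ O, Nab (fun y u v => K y u v) e Γ x) {x : E} (hx : x ∈ O) (a b c : ι) :
    rc K x (e a x) (e b x) (e c x) = ∑ d, Cur e Γ a b c d x • e d x := by
  have hO := he.isOpen
  have de : ∀ a, DifferentiableAt ℝ (e a) x := fun a => diffAt hO (he.smooth a) hx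
  have hN' : ∀ a b, dV (e a) (e b) x = ∑ c, Γ a b c x • e c x - K x (e a x) (e b x) :=
    fun a b => eq_sub_of_add_eq (hN x hx a b)
  have key : ∀ a b, dV (e a) (dV (e b) (e c)) x + (fderiv ℝ K x (e a x) (e b x) (e c x) +
      K x (dV (e a) (e b) x) (e c x) + K x (e b x) (dV (e a) (e c) x)) =
      ∑ f, (dd (e a) (Γ b c f) x • e f x + Γ b c f x • dV (e a) (e f) x) := fun a b => by
    have h1 := dV_congr hO (F := fun y => dV (e b) (e c) y + K y (e b y) (e c y))
      (F' := fun y => ∑ f, Γ b c f y • e f y) (fun y hy => hN y hy b c) (e a) hx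
    have h2 := ((diffAt hO h.sK hx).hasFDerivAt.clm_apply (de b).hasFDerivAt).clm_apply
      (de c).hasFDerivAt
    rw [dV_add (diffAt hO (sm_dV hO (he.smooth b) (he.smooth c)) hx) h2.differentiableAt,
      dV_sum (F := fun f y => Γ b c f y • e f y)
        fun f => (diffAt hO (hΓ b c f) hx).smul (de f)] at h1
    simp only [dV_smul (diffAt hO (hΓ b c _) hx) (de _)] at h1
    rw [← h1]
    congr 1
    simp only [dV]
    rw [h2.fderiv]
    simp only [add_apply, ContinuousLinearMap.comp_apply, ContinuousLinearMap.flip_apply]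
    abel
  have hc := dV_comm hO (he.smooth a) (he.smooth b) (he.smooth c) hx
  have hb : br (e a) (e b) x = ∑ f, (Γ a b f x - Γ b a f x) • e f x := by
    simp only [br_eq, hN', sub_smul, Finset.sum_sub_distrib, h.ksymm hx (e b x) (e a x)]
    abel
  have hk : K x (dV (e a) (e b) x) (e c x) - K x (dV (e b) (e a) x) (e c x) =
      ∑ f, (Γ a b f x - Γ b a f x) • K x (e f x) (e c x) := by
    rw [← sub_apply, ← map_sub, ← br_eq, hb]
    simp only [map_sum, map_smul, sum_apply, smul_apply]
  rw [hb, fderiv_frame] at hc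
  have k1 := key a b
  have k2 := key b a
  have s1 : ∀ a b c, ∑ f, Γ b c f x • dV (e a) (e f) x =
      ∑ d, (∑ f, Γ b c f x * Γ a f d x) • e d x - ∑ f, Γ b c f x • K x (e a x) (e f x) := by
    intro a b c
    simp only [hN', smul_sub, Finset.sum_sub_distrib, Finset.smul_sum, smul_smul, Finset.sum_smul]
    rw [Finset.sum_comm]
  have s2 : ∑ f, (Γ a b f x - Γ b a f x) • dV (e f) (e c) x =
      ∑ d, (∑ f, (Γ a b f x - Γ b a f x) * Γ f c d x) • e d x -
        ∑ f, (Γ a b f x - Γ b a f x) • K x (e f x) (e c x) := by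
    simp only [hN', smul_sub, Finset.sum_sub_distrib, Finset.smul_sum, smul_smul, Finset.sum_smul]
    rw [Finset.sum_comm]
  have s3 : ∀ a b, K x (e b x) (dV (e a) (e c) x) =
      ∑ f, Γ a c f x • K x (e b x) (e f x) - K x (e b x) (K x (e a x) (e c x)) := fun a b => by
    simp only [hN', map_sub, map_sum, map_smul]
  rw [Finset.sum_add_distrib, s1, s3] at k1 k2
  rw [s2] at hc
  simp only [Cur, Finset.sum_sub_distrib, add_smul, sub_smul (r := dd _ _ _),
    sub_smul (r := ∑ _, _), sub_smul (r := ∑ _, _ - ∑ _, _), Finset.sum_add_distrib, rc]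
  linear_combination (norm := abel1) k1 - k2 - hc - hk

theorem k1a [DecidableEq ι] : K1a E ι := by
  intro O e η ηi w g φ Γ hη he hg hL
  obtain ⟨B, K, h⟩ := exists_sm hη he hg
  have hN : ∀ x ∈ O, Nab (fun y u v => K y u v) e Γ x := fun x hx =>
    h.nab hη he hg hx (hL.co x hx) (hL.dw x hx) (hL.tor x hx)
  refine ⟨h.smooth, ⟨_, fun x hx => h.isConn hx⟩, fun G hG x hx => ⟨fun a b => ?_, fun a b c d => ?_⟩⟩
  · rw [h.uniq hx (hG x hx)]
    exact hN x hx a b
  · rw [h.riem hG hx, h.rc_frame he hL.smooth hN hx, h.frame_val hg hx, low]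

theorem k1b [DecidableEq ι] : K1b E ι := by
  intro O e η ηi w g hη he hg
  obtain ⟨B, K, h⟩ := exists_sm hη he hg
  obtain ⟨θ, hθ, hθ'⟩ := he.coframe
  have hN : ∀ x ∈ O, Nab (fun y u v => K y u v) e
      (fun a b c y => θ c y (dV (e a) (e b) y + K y (e a y) (e b y))) x :=
    fun x hx a b => (hθ' x hx _).symm
  refine ⟨_, fun a b c => (hθ c).clm_apply ((sm_dV he.isOpen (he.smooth a) (he.smooth b)).add
    ((h.sK.clm_apply (he.smooth a)).clm_apply (he.smooth b))),
    fun x hx => (h.of_nab he hg hx (hN x hx)).2, fun x hx a => ?_,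
    fun x hx => (h.of_nab he hg hx (hN x hx)).1⟩
  have hw := hg.ne x hx
  field_simp

/-- The trace of a linear map over dual bases. -/
lemma trace_dual {κ : Type} [Fintype κ] [DecidableEq κ] [FiniteDimensional ℝ E]
    (b : E →L[ℝ] E →L[ℝ] ℝ) (V V' : κ → E) (hc : Fintype.card κ = Module.finrank ℝ E)
    (hV : ∀ i j, b (V i) (V' j) = if i = j then 1 else 0) (T : E →ₗ[ℝ] E) :
    ∑ i, b (T (V i)) (V' i) = LinearMap.trace ℝ E T := by
  have hco : ∀ (c : κ → ℝ) j, b (∑ i, c i • V i) (V' j) = c j := fun c j => by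
    simp [map_sum, hV]
  have hli : LinearIndependent ℝ V := Fintype.linearIndependent_iff.2 fun c h j => by
    rw [← hco c j, h]
    simp
  let β := basisOfLinearIndependentOfCardEqFinrank' V hli hc
  have hβ : ∀ i, β i = V i := fun i => by simp [β]
  rw [LinearMap.trace_eq_matrix_trace ℝ β, Matrix.trace]
  refine Finset.sum_congr rfl fun i _ => ?_
  rw [Matrix.diag_apply, LinearMap.toMatrix_apply, ← hco (β.repr (T (β i))) i]
  simp only [← hβ, Module.Basis.sum_repr]

/-- The curvature operator as a linear map of its first argument. -/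
noncomputable def rcL (K : E → E →L[ℝ] E →L[ℝ] E) (x b c : E) : E →ₗ[ℝ] E where
  toFun a := rc K x a b c
  map_add' a a' := by
    simp only [rc, map_add, add_apply]
    abel
  map_smul' t a := by
    simp only [rc, map_smul, smul_apply, RingHom.id_apply, smul_add, smul_sub]

lemma rc_sum (K : E → E →L[ℝ] E →L[ℝ] E) (x a : E) (v : ι → E) (s t : ι → ℝ) :
    rc K x a (∑ b, s b • v b) (∑ c, t c • v c) = ∑ b, ∑ c, (s b * t c) • rc K x a (v b) (v c) := by
  rw [Finset.sum_comm]
  simp only [rc, map_sum, map_smul, sum_apply, smul_apply, smul_add, smul_sub, Finset.smul_sum,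
    Finset.sum_add_distrib, Finset.sum_sub_distrib, smul_smul, mul_comm (t _)]

theorem k3 [DecidableEq ι] (κ : Type) [Fintype κ] [DecidableEq κ] : K3 E ι κ := by
  intro O e η ηi w g φ Γ G hκ hη he hg hL hG x hx
  obtain ⟨B, K, h⟩ := exists_sm hη he hg
  have hN : ∀ x ∈ O, Nab (fun y u v => K y u v) e Γ x := fun x hx =>
    h.nab hη he hg hx (hL.co x hx) (hL.dw x hx) (hL.tor x hx)
  let β : Module.Basis ι ℝ E := Module.Basis.mk (v := fun a => e a x)
    (Fintype.linearIndependent_iff.2 (he.indep x hx)) fun v _ => by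
      obtain ⟨c, rfl⟩ := he.span x hx v
      exact Submodule.sum_mem _ fun a _ => Submodule.smul_mem _ _ (Submodule.subset_span ⟨a, rfl⟩)
  have : FiniteDimensional ℝ E := Module.Finite.of_basis β
  have hι : Fintype.card ι = Module.finrank ℝ E := (Module.finrank_eq_card_basis β).symm
  have hw := hg.ne x hx
  let V' : ι → E := fun j => ∑ c, (ηi c j / w x) • e c x
  have hV' : ∀ (c : ι → ℝ) j, B x (∑ a, c a • e a x) (V' j) = c j := fun c j => by
    simp only [V', map_sum (B x _), map_smul, h.frame_val hg hx, smul_eq_mul, Finset.mul_sum]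
    rw [Finset.sum_comm]
    have : ∀ a, ∑ k, ηi k j / w x * (w x * (c a * η a k)) = c a * if a = j then 1 else 0 :=
      fun a => by
        rw [← hη.inv, Finset.mul_sum]
        exact Finset.sum_congr rfl fun k _ => by field_simp
    simp [this]
  have hV : ∀ i j, B x (e i x) (V' j) = if i = j then 1 else 0 := fun i j => by
    have := hV' (fun a => if i = a then 1 else 0) j
    simpa using this
  have tr : ∀ b c, LinearMap.trace ℝ E (rcL K x (e b x) (e c x)) = ∑ a, Cur e Γ a b c a x :=
    fun b c => by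
      rw [← trace_dual (B x) (fun a => e a x) V' hι hV]
      refine Finset.sum_congr rfl fun a _ => ?_
      show B x (rc K x (e a x) (e b x) (e c x)) (V' a) = _
      rw [h.rc_frame he hL.smooth hN hx, hV']
  constructor
  · rintro ⟨U, U', hU, hR⟩ b c
    rw [← tr, ← trace_dual (B x) U U' (hκ.trans hι) (fun i j => by rw [← h.val x hx, hU]),
      ← hR (e b x) (e c x)]
    exact Finset.sum_congr rfl fun i _ => (h.riem hG hx _ _ _ _).symm
  · intro hR
    let σ := Fintype.equivOfCardEq hκ
    refine ⟨fun i => e (σ i) x, fun i => V' (σ i), fun i j => ?_, fun b c => ?_⟩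
    · rw [h.val x hx, hV]
      simp
    · obtain ⟨s, rfl⟩ := he.span x hx b
      obtain ⟨t, rfl⟩ := he.span x hx c
      rw [σ.sum_comp (fun a => Riem g G x (e a x) _ _ (V' a))]
      simp only [h.riem hG hx, rc_sum, map_sum, map_smul, sum_apply, smul_apply, smul_eq_mul]
      rw [Finset.sum_comm]
      refine Finset.sum_eq_zero fun b _ => ?_
      rw [Finset.sum_comm]
      refine Finset.sum_eq_zero fun c _ => ?_
      rw [← Finset.mul_sum]
      simp only [h.rc_frame he hL.smooth hN hx, hV', hR, mul_zero]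

end Vale.Agent.P354Q
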