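import Vale.Agent.P354Q.Bian

/-!
Frame calculus: the coframe, the metric as a smooth field of bilinear maps, the connection.
-/

open scoped ContDiff
open Set Filter Topology

set_option maxSynthPendingDepth 3

namespace Vale.Agent.P354Q

variable {E : Type} [NormedAddCommGroup E] [NormedSpace ℝ E] {ι : Type} [Fintype ι]

/-- The smooth coframe. -/
lemma Frame.coframe {O : Set E} {e : ι → E → E} (he : Frame O e) :
    ∃ θ : ι → E → E →L[ℝ] ℝ, (∀ a, ContDiffOn ℝ ∞ (θ a) O) ∧
      ∀ x ∈ O, ∀ v, ∑ a, θ a x v • e a x = v := by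
  let L : E → (ι → ℝ) →L[ℝ] E := fun x =>
    ∑ a, (ContinuousLinearMap.proj a : (ι → ℝ) →L[ℝ] ℝ).smulRight (e a x)
  have hL : ∀ x c, L x c = ∑ a, c a • e a x := fun x c => by
    simp only [L, sum_apply, ContinuousLinearMap.smulRight_apply, ContinuousLinearMap.proj_apply]
  have hLs : ContDiffOn ℝ ∞ L O :=
    ContDiffOn.sum fun a _ => contDiffOn_const.smulRight (he.smooth a)
  have hE : ∀ x ∈ O, ∃ A : (ι → ℝ) ≃L[ℝ] E, (A : (ι → ℝ) →L[ℝ] E) = L x := fun x hx => by
    have hb : Function.Bijective (L x : (ι → ℝ) →ₗ[ℝ] E) := by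
      refine ⟨(injective_iff_map_eq_zero _).2 fun c hc => funext (he.indep x hx c ?_), fun v => ?_⟩
      · rw [← hL]; exact hc
      · obtain ⟨c, hc⟩ := he.span x hx v
        exact ⟨c, by rw [hc, ← hL]; rfl⟩
    exact ⟨(LinearEquiv.ofBijective _ hb).toContinuousLinearEquiv, by ext; rfl⟩
  refine ⟨fun a x => (ContinuousLinearMap.proj a : (ι → ℝ) →L[ℝ] ℝ).comp (L x).inverse,
    fun a => contDiffOn_const.clm_comp fun x hx => ?_, fun x hx v => ?_⟩
  · obtain ⟨A, hA⟩ := hE x hx
    have h1 : ContDiffAt ℝ ∞ ContinuousLinearMap.inverse (L x) := hA ▸ contDiffAt_map_inverse A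
    exact h1.comp_contDiffWithinAt x (hLs x hx)
  · obtain ⟨A, hA⟩ := hE x hx
    have := hL x ((L x).inverse v)
    simp only [ContinuousLinearMap.comp_apply, ContinuousLinearMap.proj_apply]
    rw [← this, ← hA, ContinuousLinearMap.inverse_equiv]
    simp

/-- The Koszul form of a field of bilinear maps. -/
noncomputable def kos (B : E → E →L[ℝ] E →L[ℝ] ℝ) (x u v z : E) : ℝ :=
  fderiv ℝ B x u v z + fderiv ℝ B x v u z - fderiv ℝ B x z u v

/-- The metric and its connection as smooth fields of bilinear maps. -/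
structure Sm (O : Set E) (g : E → E → E → ℝ) (B : E → E →L[ℝ] E →L[ℝ] ℝ)
    (K : E → E →L[ℝ] E →L[ℝ] E) : Prop where
  isOpen : IsOpen O
  sB : ContDiffOn ℝ ∞ B O
  sK : ContDiffOn ℝ ∞ K O
  val : ∀ x ∈ O, ∀ u v, g x u v = B x u v
  symm : ∀ x ∈ O, ∀ u v, B x u v = B x v u
  nd : ∀ x ∈ O, ∀ u, (∀ v, B x u v = 0) → u = 0
  conn : ∀ x ∈ O, ∀ u v z, 2 * B x (K x u v) z = kos B x u v z

lemma fderiv_app2 {W : Type} [NormedAddCommGroup W] [NormedSpace ℝ W]
    {B : E → E →L[ℝ] E →L[ℝ] W} {x : E} (h : DifferentiableAt ℝ B x) (u v : E) :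
    HasFDerivAt (fun y => B y u v) (((fderiv ℝ B x).flip u).flip v) x := by
  have h1 := (h.hasFDerivAt.clm_apply (hasFDerivAt_const u x)).clm_apply (hasFDerivAt_const v x)
  refine h1.congr_fderiv ?_
  ext a
  simp

lemma exists_sm [DecidableEq ι] {O : Set E} {e : ι → E → E} {η ηi : ι → ι → ℝ} {w : E → ℝ}
    {g : E → E → E → ℝ} (hη : Eta η ηi) (he : Frame O e) (hg : IsMet O e η w g) :
    ∃ B K, Sm O g B K := by
  obtain ⟨θ, hθ, hθ'⟩ := he.coframe
  have hO := he.isOpen
  let B : E → E →L[ℝ] E →L[ℝ] ℝ := fun x => ∑ a, ∑ b, (w x * η a b) • (θ a x).smulRight (θ b x)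
  have hB : ContDiffOn ℝ ∞ B O := ContDiffOn.sum fun a _ => ContDiffOn.sum fun b _ =>
    (hg.smooth.mul contDiffOn_const).smul ((hθ a).smulRight (hθ b))
  have lin : ∀ x ∈ O, ∀ u v, g x u v = ∑ b, θ b x v * g x u (e b x) := fun x hx u v => by
    conv_lhs => rw [← hθ' x hx v]
    rw [← IsLinearMap.mk'_apply (hg.lin x hx u), map_sum]
    simp only [map_smul, IsLinearMap.mk'_apply, smul_eq_mul]
  have val : ∀ x ∈ O, ∀ u v, g x u v = B x u v := fun x hx u v => by
    simp only [B, sum_apply, smul_apply, ContinuousLinearMap.smulRight_apply, smul_eq_mul]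
    rw [lin x hx, Finset.sum_comm]
    refine Finset.sum_congr rfl fun b _ => ?_
    rw [hg.symm x hx, lin x hx, Finset.mul_sum]
    refine Finset.sum_congr rfl fun a _ => ?_
    rw [hg.val x hx, hη.symm b a]
    ring
  -- the sharp map
  let S : E → (E →L[ℝ] ℝ) →L[ℝ] E := fun x => ∑ a, ∑ c, (ηi c a / w x) •
    ((ContinuousLinearMap.apply ℝ ℝ (e c x)).smulRight (e a x))
  have hS : ContDiffOn ℝ ∞ S O := ContDiffOn.sum fun a _ => ContDiffOn.sum fun c _ =>
    (contDiffOn_const.div hg.smooth hg.ne).smul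
      (((ContinuousLinearMap.apply ℝ ℝ (E := E)).contDiff.comp_contDiffOn
        (he.smooth c)).smulRight (he.smooth a))
  have hSB : ∀ x ∈ O, ∀ (l : E →L[ℝ] ℝ) (z : E), B x (S x l) z = l z := fun x hx l z => by
    have h1 : ∀ d, B x (S x l) (e d x) = l (e d x) := fun d => by
      simp only [S, sum_apply, smul_apply, ContinuousLinearMap.smulRight_apply,
        ContinuousLinearMap.apply_apply, map_sum, map_smul, smul_eq_mul, ← val x hx, hg.val x hx]
      rw [Finset.sum_comm]
      have hw := hg.ne x hx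
      have : ∀ c, ∑ a, ηi c a / w x * (l (e c x) * (w x * η a d)) =
          l (e c x) * if d = c then 1 else 0 := fun c => by
        rw [← hη.inv, Finset.mul_sum]
        refine Finset.sum_congr rfl fun a _ => ?_
        rw [hη.symm a d, hη.symm' c a]
        field_simp
      simp [this]
    rw [← hθ' x hx z]
    simp only [map_sum, map_smul, h1]
  let k : E → E →L[ℝ] E →L[ℝ] E →L[ℝ] ℝ := fun x => (1 / 2 : ℝ) • (fderiv ℝ B x +
    (fderiv ℝ B x).flip - (ContinuousLinearMap.compL ℝ E (E →L[ℝ] E →L[ℝ] ℝ) (E →L[ℝ] E →L[ℝ] ℝ)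
      (ContinuousLinearMap.flipₗᵢ ℝ E E ℝ).toContinuousLinearEquiv.toContinuousLinearMap)
        (fderiv ℝ B x).flip)
  have hk : ∀ x u v z, 2 * k x u v z = kos B x u v z := fun x u v z => by
    simp [k, kos]
  have hfl : ContDiffOn ℝ ∞ (fun x => (fderiv ℝ B x).flip) O :=
    (ContinuousLinearMap.flipₗᵢ ℝ E E (E →L[ℝ] ℝ)).contDiff.comp_contDiffOn (sm_fderiv hO hB)
  have hks : ContDiffOn ℝ ∞ k O :=
    (((sm_fderiv hO hB).add hfl).sub (contDiffOn_const.clm_apply hfl)).const_smul _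
  refine ⟨B, fun x => (ContinuousLinearMap.compL ℝ E (E →L[ℝ] ℝ) E (S x)).comp (k x), hO, hB,
    (contDiffOn_const.clm_apply hS).clm_comp hks, val, fun x hx u v => ?_, fun x hx u hu => ?_,
    fun x hx u v z => ?_⟩
  · rw [← val x hx, ← val x hx, hg.symm x hx]
  · have h1 : ∀ b, ∑ a, θ a x u * η a b = 0 := fun b => by
      have := hu (e b x)
      rw [← val x hx, hg.symm x hx, lin x hx] at this
      refine mul_left_cancel₀ (hg.ne x hx) ?_
      rw [mul_zero, ← this, Finset.mul_sum]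
      refine Finset.sum_congr rfl fun a _ => ?_
      rw [hg.val x hx, hη.symm b a]
      ring
    have h2 : ∀ c, θ c x u = 0 := fun c => by
      have : ∑ b, (∑ a, θ a x u * η a b) * ηi b c = 0 := by simp [h1]
      simp only [Finset.sum_mul] at this
      rw [Finset.sum_comm] at this
      simpa only [mul_assoc, ← Finset.mul_sum, hη.inv, mul_ite, mul_one, mul_zero,
        Finset.sum_ite_eq', Finset.mem_univ, if_true] using this
    rw [← hθ' x hx u]
    simp [h2]
  · rw [← hk]
    simp only [ContinuousLinearMap.comp_apply, ContinuousLinearMap.compL_apply, hSB x hx]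

namespace Sm

variable {O : Set E} {g : E → E → E → ℝ} {B : E → E →L[ℝ] E →L[ℝ] ℝ}
  {K : E → E →L[ℝ] E →L[ℝ] E}

lemma ld (h : Sm O g B K) {x : E} (hx : x ∈ O) (u v a : E) :
    lineDeriv ℝ (fun y => g y u v) x a = fderiv ℝ B x a u v := by
  have h1 := (fderiv_app2 (diffAt h.isOpen h.sB hx) u v).congr_of_eventuallyEq
    (f₁ := fun y => g y u v) (Filter.mem_of_superset (h.isOpen.mem_nhds hx) fun y hy => h.val y hy u v)
  exact (h1.hasLineDerivAt a).lineDeriv

lemma smooth (h : Sm O g B K) (u v : E) : ContDiffOn ℝ ∞ (fun y => g y u v) O :=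
  ((h.sB.clm_apply contDiffOn_const).clm_apply contDiffOn_const).congr fun y hy => h.val y hy u v

lemma isConn (h : Sm O g B K) {x : E} (hx : x ∈ O) : IsConn g (fun y u v => K y u v) x := by
  intro a b c
  rw [h.ld hx, h.ld hx, h.ld hx, h.val x hx, h.conn x hx, kos]

lemma ext (h : Sm O g B K) {x : E} (hx : x ∈ O) {u u' : E} (hu : ∀ v, B x u v = B x u' v) :
    u = u' :=
  sub_eq_zero.1 (h.nd x hx _ fun v => by simp [hu v])

lemma uniq (h : Sm O g B K) {G : E → E → E → E} {x : E} (hx : x ∈ O) (hG : IsConn g G x)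
    (u v : E) : G x u v = K x u v := by
  refine h.ext hx fun z => ?_
  have h1 := hG u v z
  have h2 := h.isConn hx u v z
  rw [h.val x hx] at h1 h2
  linarith

lemma dsymm (h : Sm O g B K) {x : E} (hx : x ∈ O) (a u v : E) :
    fderiv ℝ B x a u v = fderiv ℝ B x a v u := by
  rw [← h.ld hx, ← h.ld hx]
  refine Filter.EventuallyEq.lineDeriv_eq ?_
  exact Filter.mem_of_superset (h.isOpen.mem_nhds hx) fun y hy => by
    show g y u v = g y v u
    rw [h.val y hy, h.val y hy, h.symm y hy]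

lemma ksymm (h : Sm O g B K) {x : E} (hx : x ∈ O) (u v : E) : K x u v = K x v u := by
  refine h.ext hx fun z => ?_
  have h1 := h.conn x hx u v z
  have h2 := h.conn x hx v u z
  rw [kos] at h1 h2
  rw [h.dsymm hx z v u] at h2
  linarith

lemma compat (h : Sm O g B K) {x : E} (hx : x ∈ O) (a u v : E) :
    fderiv ℝ B x a u v = B x (K x a u) v + B x u (K x a v) := by
  have h1 := h.conn x hx a u v
  have h2 := h.conn x hx a v u
  rw [kos] at h1 h2
  rw [h.dsymm hx a v u, h.symm x hx] at h2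
  linarith

/-- The curvature operator. -/
noncomputable def _root_.Vale.Agent.P354Q.rc (K : E → E →L[ℝ] E →L[ℝ] E) (x a b c : E) : E :=
  fderiv ℝ K x a b c - fderiv ℝ K x b a c + K x a (K x b c) - K x b (K x a c)

lemma riem (h : Sm O g B K) {G : E → E → E → E} (hG : ∀ x ∈ O, IsConn g G x) {x : E}
    (hx : x ∈ O) (a b c d : E) : Riem g G x a b c d = B x (rc K x a b c) d := by
  have key : ∀ a b, lineDeriv ℝ (fun y => g y (G y b c) d) x a =
      fderiv ℝ B x a (K x b c) d + B x (fderiv ℝ K x a b c) d := fun a b => by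
    have h1 := (((diffAt h.isOpen h.sB hx).hasFDerivAt.clm_apply
      (fderiv_app2 (diffAt h.isOpen h.sK hx) b c)).clm_apply
        (hasFDerivAt_const d x)).congr_of_eventuallyEq (f₁ := fun y => g y (G y b c) d)
          (Filter.mem_of_superset (h.isOpen.mem_nhds hx) fun y hy => by
            show g y (G y b c) d = B y (K y b c) d
            rw [h.val y hy, h.uniq hy (hG y hy)])
    rw [(h1.hasLineDerivAt a).lineDeriv]
    simp [add_comm]
  rw [Riem, key, key, h.compat hx, h.compat hx, h.val x hx, h.val x hx]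
  simp only [h.uniq hx (hG x hx), rc, map_add, map_sub, add_apply, sub_apply]
  ring

end Sm

end Vale.Agent.P354Q
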