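import Vale.Agent.P354Q.Defs

/-!
Frame calculus: the statements.
-/

open scoped ContDiff
open Set Filter Topology

namespace Vale.Agent.P354Q

section
variable (E : Type) [NormedAddCommGroup E] [NormedSpace ℝ E] (ι : Type) [Fintype ι] [DecidableEq ι]

/-- K1, from the frame to the metric: the connection exists, it has the coefficients Γ and the
curvature Cur. -/
def K1a : Prop :=
  ∀ (O : Set E) (e : ι → E → E) (η ηi : ι → ι → ℝ) (w : E → ℝ) (g : E → E → E → ℝ)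
    (φ : ι → E → ℝ) (Γ : ι → ι → ι → E → ℝ), Eta η ηi → Frame O e → IsMet O e η w g →
    LC O e η w φ Γ → (∀ u v, ContDiffOn ℝ ∞ (fun y => g y u v) O) ∧
    (∃ G, ∀ x ∈ O, IsConn g G x) ∧ ∀ G, (∀ x ∈ O, IsConn g G x) → ∀ x ∈ O, Nab G e Γ x ∧
      ∀ a b c d, Riem g G x (e a x) (e b x) (e c x) (e d x) =
        w x * low η (fun a b c d => Cur e Γ a b c d x) a b c d

/-- K1, from the metric to the frame: the coefficients exist. -/
def K1b : Prop :=
  ∀ (O : Set E) (e : ι → E → E) (η ηi : ι → ι → ℝ) (w : E → ℝ) (g : E → E → E → ℝ),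
    Eta η ηi → Frame O e → IsMet O e η w g →
    ∃ Γ, LC O e η w (fun a x => dd (e a) w x / (2 * w x)) Γ

/-- The coefficients at a point are determined by the frame and φ (Koszul formula). -/
def K1u : Prop :=
  ∀ (η ηi : ι → ι → ℝ) (φ : ι → E → ℝ) (Γ : ι → ι → ι → E → ℝ) (x : E)
    (C : ι → ι → ι → ℝ), Eta η ηi → IsCo η Γ φ x → (∀ a b c, Γ a b c x - Γ b a c x = C a b c) →
    ∀ a b c, ∑ d, Γ a b d x * η d c = φ a x * η b c + φ b x * η a c - φ c x * η a b +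
      (∑ d, C a b d * η d c - ∑ d, C b c d * η d a + ∑ d, C c a d * η d b) / 2

/-- K3 (and its converse): the Ricci tensor of the metric is the trace of Cur. -/
def K3 (κ : Type) [Fintype κ] [DecidableEq κ] : Prop :=
  ∀ (O : Set E) (e : ι → E → E) (η ηi : ι → ι → ℝ) (w : E → ℝ) (g : E → E → E → ℝ)
    (φ : ι → E → ℝ) (Γ : ι → ι → ι → E → ℝ) (G : E → E → E → E), Fintype.card κ = Fintype.card ι →
    Eta η ηi → Frame O e → IsMet O e η w g → LC O e η w φ Γ → (∀ x ∈ O, IsConn g G x) →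
    ∀ x ∈ O, (RicZero κ g G x ↔ ∀ b c, ∑ a, Cur e Γ a b c a x = 0)

/-- K2, the identities of the curvature of Levi-Civita data. -/
def K2 : Prop :=
  ∀ (O : Set E) (e : ι → E → E) (η : ι → ι → ℝ) (w : E → ℝ) (φ : ι → E → ℝ)
    (Γ : ι → ι → ι → E → ℝ), (∀ a b, η a b = η b a) → Frame O e → ContDiffOn ℝ ∞ w O →
    (∀ x ∈ O, w x ≠ 0) → LC O e η w φ Γ → ∀ x ∈ O,
    (∀ a b c d, Cur e Γ a b c d x + Cur e Γ b c a d x + Cur e Γ c a b d x = 0) ∧
    (∀ a b c d, low η (fun a b c d => Cur e Γ a b c d x) a b c d +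
      low η (fun a b c d => Cur e Γ a b c d x) a b d c = 0) ∧
    ∀ a b c d h, cov4 e Γ (Cur e Γ) a b c d h x + cov4 e Γ (Cur e Γ) b c a d h x +
      cov4 e Γ (Cur e Γ) c a b d h x = 0

/-- The commutator of two derivatives, with torsion. -/
def KComm : Prop :=
  ∀ (O : Set E) (e : ι → E → E) (Γ T : ι → ι → ι → E → ℝ) (f : E → ℝ), Frame O e →
    ContDiffOn ℝ ∞ f O → ∀ x ∈ O, HasTor e Γ T x → ∀ a b,
    dd (e a) (dd (e b) f) x - dd (e b) (dd (e a) f) x =
      ∑ c, (Γ a b c x - Γ b a c x - T a b c x) * dd (e c) f x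

/-- The first Bianchi identity with torsion (Jacobi identity of the frame). -/
def KB1 : Prop :=
  ∀ (O : Set E) (e : ι → E → E) (Γ T : ι → ι → ι → E → ℝ), Frame O e → Sm3 O Γ → Sm3 O T →
    (∀ x ∈ O, HasTor e Γ T x) → ∀ x ∈ O, ∀ a b c d,
    cov3 e Γ T a b c d x + cov3 e Γ T b c a d x + cov3 e Γ T c a b d x +
      ∑ f, (T a b f x * (T f c d x - Γ f c d x) + T b c f x * (T f a d x - Γ f a d x) +
        T c a f x * (T f b d x - Γ f b d x)) =
      Cur e Γ a b c d x + Cur e Γ b c a d x + Cur e Γ c a b d x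

/-- The true curvature of a connection with torsion. -/
noncomputable def CurT {E : Type} [NormedAddCommGroup E] [NormedSpace ℝ E] {ι : Type} [Fintype ι]
    (e : ι → E → E) (Γ T : ι → ι → ι → E → ℝ) (a b c d : ι) (x : E) : ℝ :=
  Cur e Γ a b c d x + ∑ f, T a b f x * Γ f c d x

/-- The second Bianchi identity with torsion. -/
def KB2 : Prop :=
  ∀ (O : Set E) (e : ι → E → E) (Γ T : ι → ι → ι → E → ℝ), Frame O e → Sm3 O Γ → Sm3 O T →
    (∀ x ∈ O, HasTor e Γ T x) → ∀ x ∈ O, ∀ a b c d h,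
    cov4 e Γ (CurT e Γ T) a b c d h x + cov4 e Γ (CurT e Γ T) b c a d h x +
      cov4 e Γ (CurT e Γ T) c a b d h x +
      ∑ f, (T a b f x * CurT e Γ T f c d h x + T b c f x * CurT e Γ T f a d h x +
        T c a f x * CurT e Γ T f b d h x) = 0

end

/-- K2, algebra: a tensor with the symmetries of the curvature and without trace is the Weyl tensor
of its Psi. -/
def KW : Prop :=
  ∀ R : Fin 4 → Fin 4 → Fin 4 → Fin 4 → ℝ, (∀ a b c d, R a b c d + R b a c d = 0) →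
    (∀ a b c d, R a b c d + R b c a d + R c a b d = 0) →
    (∀ a b c d, low eta R a b c d + low eta R a b d c = 0) → (∀ b c, ∑ a, R a b c a = 0) →
    ∀ a b c d, R a b c d = WeylU (psiRe (low eta R)) (psiIm (low eta R)) a b c d

/-- K3 in the null frame: no defect implies vacuum. -/
def K3W : Prop :=
  ∀ (O : Set P354n.R4) (e : Fin 4 → P354n.R4 → P354n.R4) (w : P354n.R4 → ℝ)
    (g : P354n.R4 → P354n.R4 → P354n.R4 → ℝ) (φ : Fin 4 → P354n.R4 → ℝ)
    (Γ : Fin 4 → Fin 4 → Fin 4 → P354n.R4 → ℝ) (p q : P354n.R4 → Fin 5 → ℝ),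
    Frame O e → IsMet O e eta w g → LC O e eta w φ Γ →
    (∀ x ∈ O, ∀ a b c d, Cur e Γ a b c d x = WeylU (p x) (q x) a b c d) →
    ∃ G, ∀ y ∈ O, P354n.IsConn g G y ∧ ∃ V V' : Fin 4 → P354n.R4,
      (∀ i j, g y (V i) (V' j) = if i = j then 1 else 0) ∧
      ∀ b c, ∑ i, P354n.Riem g G y (V i) b c (V' i) = 0

/-- K2 in the null frame (the forward direction): a vacuum metric has frame data without defect. -/
def K2W : Prop :=
  ∀ (O : Set P354n.R4) (e : Fin 4 → P354n.R4 → P354n.R4) (w : P354n.R4 → ℝ)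
    (g : P354n.R4 → P354n.R4 → P354n.R4 → ℝ) (φ : Fin 4 → P354n.R4 → ℝ)
    (Γ : Fin 4 → Fin 4 → Fin 4 → P354n.R4 → ℝ) (G : P354n.R4 → P354n.R4 → P354n.R4 → P354n.R4),
    Frame O e → IsMet O e eta w g → LC O e eta w φ Γ →
    (∀ y ∈ O, P354n.IsConn g G y ∧ ∃ V V' : Fin 4 → P354n.R4,
      (∀ i j, g y (V i) (V' j) = if i = j then 1 else 0) ∧
      ∀ b c, ∑ i, P354n.Riem g G y (V i) b c (V' i) = 0) →
    ∃ p q : P354n.R4 → Fin 5 → ℝ, (∀ k, ContDiffOn ℝ ∞ (fun x => p x k) O) ∧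
      (∀ k, ContDiffOn ℝ ∞ (fun x => q x k) O) ∧ ∀ x ∈ O,
      (∀ a b c d, Cur e Γ a b c d x = WeylU (p x) (q x) a b c d) ∧
      ∀ b c d, ∑ a, cov4 e Γ (fun a b c d y => WeylU (p y) (q y) a b c d) a b c d a x = 0

end Vale.Agent.P354Q
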