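import Vale.Agent.P354Q.K1

/-!
Frame calculus: the Weyl tensor in the null frame.
-/

open scoped ContDiff
open Set Filter Topology

namespace Vale.Agent.P354Q

lemma fin4 {P : Fin 4 → Prop} (h0 : P 0) (h1 : P 1) (h2 : P 2) (h3 : P 3) : ∀ i, P i := by
  intro i
  fin_cases i
  exacts [h0, h1, h2, h3]

lemma eta_ok : Eta eta etai := by
  refine ⟨?_, ?_, ?_⟩ <;> refine fin4 ?_ ?_ ?_ ?_ <;> refine fin4 ?_ ?_ ?_ ?_ <;>
    simp [eta, etai, Fin.sum_univ_four] <;> norm_num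

lemma anti_ext {P Q : Fin 4 → Fin 4 → ℝ} (hP : ∀ a b, P a b + P b a = 0)
    (hQ : ∀ a b, Q a b + Q b a = 0) (h1 : P 0 1 = Q 0 1) (h2 : P 0 2 = Q 0 2) (h3 : P 0 3 = Q 0 3)
    (h4 : P 1 2 = Q 1 2) (h5 : P 1 3 = Q 1 3) (h6 : P 2 3 = Q 2 3) : ∀ a b, P a b = Q a b := by
  have h0 : ∀ a, P a a = Q a a := fun a => by linarith [hP a a, hQ a a]
  have hs : ∀ a b, P a b = Q a b → P b a = Q b a := fun a b h => by linarith [hP a b, hQ a b]
  exact fin4 (fin4 (h0 _) h1 h2 h3) (fin4 (hs _ _ h1) (h0 _) h4 h5)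
    (fin4 (hs _ _ h2) (hs _ _ h4) (h0 _) h6) (fin4 (hs _ _ h3) (hs _ _ h5) (hs _ _ h6) (h0 _))

lemma weyl_anti1 (p q : Fin 5 → ℝ) : ∀ a b c d, Weyl p q a b c d + Weyl p q b a c d = 0 := by
  refine fin4 ?_ ?_ ?_ ?_ <;> refine fin4 ?_ ?_ ?_ ?_ <;> simp only [Weyl, Matrix.cons_val] <;>
    refine fin4 ?_ ?_ ?_ ?_ <;> refine fin4 ?_ ?_ ?_ ?_ <;> simp only [Matrix.cons_val] <;> ring

lemma weyl_pair (p q : Fin 5 → ℝ) : ∀ a b c d, Weyl p q a b c d = Weyl p q c d a b := by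
  refine fin4 ?_ ?_ ?_ ?_ <;> refine fin4 ?_ ?_ ?_ ?_ <;> refine fin4 ?_ ?_ ?_ ?_ <;>
    refine fin4 ?_ ?_ ?_ ?_ <;> rfl

lemma weyl_anti2 (p q : Fin 5 → ℝ) (a b c d : Fin 4) :
    Weyl p q a b c d + Weyl p q a b d c = 0 := by
  rw [weyl_pair, weyl_pair p q a b]
  exact weyl_anti1 p q c d a b

/-- The pair symmetry. -/
lemma pair_symm {ι : Type} (L : ι → ι → ι → ι → ℝ) (h1 : ∀ a b c d, L a b c d + L b a c d = 0)
    (h2 : ∀ a b c d, L a b c d + L b c a d + L c a b d = 0)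
    (h3 : ∀ a b c d, L a b c d + L a b d c = 0) (a b c d : ι) : L a b c d = L c d a b := by
  linarith [h2 a b c d, h2 b c d a, h2 c d a b, h2 d a b c, h3 a b c d, h3 b c a d, h3 c a b d,
    h1 c a d b, h3 c d b a, h3 d b c a, h1 d b a c, h3 d a c b, h3 a c d b, h1 a c b d,
    h1 b d c a, h3 b d a c, h1 a d b c, h1 a b d c, h1 c d a b, h1 b c d a, h1 a c d b]

lemma weyl_low (L : Fin 4 → Fin 4 → Fin 4 → Fin 4 → ℝ) (h1 : ∀ a b c d, L a b c d + L b a c d = 0)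
    (h2 : ∀ a b c d, L a b c d + L b c a d + L c a b d = 0)
    (h3 : ∀ a b c d, L a b c d + L a b d c = 0)
    (h4 : ∀ b c, -(L 0 b c 1 + L 1 b c 0) / 2 + L 2 b c 2 + L 3 b c 3 = 0) :
    ∀ a b c d, L a b c d = Weyl (psiRe L) (psiIm L) a b c d := by
  have hp := pair_symm L h1 h2 h3
  have r0 : ∀ a c d, L a a c d = 0 := fun a c d => by linarith [h1 a a c d]
  have s0 : ∀ a c d, L c d a a = 0 := fun a c d => by linarith [h3 c d a a]
  have r10 : ∀ c d, L 1 0 c d = -L 0 1 c d := fun c d => by linarith [h1 0 1 c d]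
  have s10 : ∀ c d, L c d 1 0 = -L c d 0 1 := fun c d => by linarith [h3 c d 0 1]
  have r20 : ∀ c d, L 2 0 c d = -L 0 2 c d := fun c d => by linarith [h1 0 2 c d]
  have s20 : ∀ c d, L c d 2 0 = -L c d 0 2 := fun c d => by linarith [h3 c d 0 2]
  have r30 : ∀ c d, L 3 0 c d = -L 0 3 c d := fun c d => by linarith [h1 0 3 c d]
  have s30 : ∀ c d, L c d 3 0 = -L c d 0 3 := fun c d => by linarith [h3 c d 0 3]
  have r21 : ∀ c d, L 2 1 c d = -L 1 2 c d := fun c d => by linarith [h1 1 2 c d]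
  have s21 : ∀ c d, L c d 2 1 = -L c d 1 2 := fun c d => by linarith [h3 c d 1 2]
  have r31 : ∀ c d, L 3 1 c d = -L 1 3 c d := fun c d => by linarith [h1 1 3 c d]
  have s31 : ∀ c d, L c d 3 1 = -L c d 1 3 := fun c d => by linarith [h3 c d 1 3]
  have r32 : ∀ c d, L 3 2 c d = -L 2 3 c d := fun c d => by linarith [h1 2 3 c d]
  have s32 : ∀ c d, L c d 3 2 = -L c d 2 3 := fun c d => by linarith [h3 c d 2 3]
  have t00 := h4 0 0
  have t01 := h4 0 1
  have t02 := h4 0 2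
  have t03 := h4 0 3
  have t11 := h4 1 1
  have t12 := h4 1 2
  have t13 := h4 1 3
  have t22 := h4 2 2
  have t23 := h4 2 3
  have t33 := h4 3 3
  have cy := h2 0 1 2 3
  simp only [r0, s0, r10, s10, r20, s20, r30, s30, r21, s21, r31, s31, r32, s32]
    at t00 t01 t02 t03 t11 t12 t13 t22 t23 t33 cy
  clear r0 s0 r10 s10 r20 s20 r30 s30 r21 s21 r31 s31 r32 s32
  have p01 := hp 0 2 0 1
  have p02 := hp 0 3 0 1
  have p03 := hp 1 2 0 1
  have p04 := hp 1 3 0 1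
  have p05 := hp 2 3 0 1
  have p12 := hp 0 3 0 2
  have p13 := hp 1 2 0 2
  have p14 := hp 1 3 0 2
  have p15 := hp 2 3 0 2
  have p23 := hp 1 2 0 3
  have p24 := hp 1 3 0 3
  have p25 := hp 2 3 0 3
  have p34 := hp 1 3 1 2
  have p35 := hp 2 3 1 2
  have p45 := hp 2 3 1 3
  intro a b c d
  revert a b
  refine anti_ext (fun a b => h1 a b c d) (fun a b => weyl_anti1 _ _ a b c d) ?_ ?_ ?_ ?_ ?_ ?_ <;>
    revert c d <;> refine anti_ext (h3 _ _) (weyl_anti2 _ _ _ _) ?_ ?_ ?_ ?_ ?_ ?_ <;>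
    simp only [Weyl, psiRe, psiIm, Matrix.cons_val] <;> linarith

lemma low_low (R : Fin 4 → Fin 4 → Fin 4 → Fin 4 → ℝ) (a b c d : Fin 4) :
    low etai (low eta R) a b c d = R a b c d := by
  revert d
  refine fin4 ?_ ?_ ?_ ?_ <;> simp [low, eta, etai, Fin.sum_univ_four] <;> ring

lemma low_low' (R : Fin 4 → Fin 4 → Fin 4 → Fin 4 → ℝ) (a b c d : Fin 4) :
    low eta (low etai R) a b c d = R a b c d := by
  revert d
  refine fin4 ?_ ?_ ?_ ?_ <;> simp [low, eta, etai, Fin.sum_univ_four] <;> ring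

theorem kw : KW := by
  intro R h1 h2 h3 h4 a b c d
  have := weyl_low (low eta R) (fun a b c d => by
      simp only [low, ← Finset.sum_add_distrib, ← add_mul, h1, zero_mul, Finset.sum_const_zero])
    (fun a b c d => by
      simp only [low, ← Finset.sum_add_distrib, ← add_mul, h2, zero_mul, Finset.sum_const_zero])
    h3 (fun b c => by
      have := h4 b c
      simp only [Fin.sum_univ_four] at this
      simp [low, eta, Fin.sum_univ_four]
      linarith)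
  rw [← low_low R, WeylU, ← funext fun a => funext fun b => funext fun c => funext (this a b c)]

/-- The Weyl tensor has no trace. -/
lemma weylU_trace (p q : Fin 5 → ℝ) : ∀ b c, ∑ a, WeylU p q a b c a = 0 := by
  refine fin4 ?_ ?_ ?_ ?_ <;> refine fin4 ?_ ?_ ?_ ?_ <;>
    simp [WeylU, low, Weyl, etai, Fin.sum_univ_four] <;> ring

theorem k3w : K3W := by
  intro O e w g φ Γ p q he hg hL hW
  obtain ⟨-, ⟨G, hG⟩, -⟩ := k1a O e eta etai w g φ Γ eta_ok he hg hL
  refine ⟨G, fun y hy => ⟨hG y hy, ?_⟩⟩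
  refine (k3 (Fin 4) O e eta etai w g φ Γ G rfl eta_ok he hg hL hG y hy).2 fun b c => ?_
  simp only [hW y hy, weylU_trace]

section
variable {E : Type} [NormedAddCommGroup E] [NormedSpace ℝ E] {ι : Type} [Fintype ι]

lemma cur_anti (e : ι → E → E) (Γ : ι → ι → ι → E → ℝ) (a b c d : ι) (x : E) :
    Cur e Γ a b c d x + Cur e Γ b a c d x = 0 := by
  simp only [Cur, sub_mul, Finset.sum_sub_distrib]
  ring

lemma cov4_congr {O : Set E} (hO : IsOpen O) (e : ι → E → E) (Γ : ι → ι → ι → E → ℝ)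
    {R R' : ι → ι → ι → ι → E → ℝ} (h : ∀ y ∈ O, ∀ a b c d, R a b c d y = R' a b c d y) {x : E}
    (hx : x ∈ O) (a b c d k : ι) : cov4 e Γ R a b c d k x = cov4 e Γ R' a b c d k x := by
  simp only [cov4, h x hx, dd_congr hO (fun y hy => h y hy b c d k) (e a) hx]

/-- The trace of the covariant derivative. -/
lemma cov4_trace (e : ι → E → E) (Γ : ι → ι → ι → E → ℝ) {R : ι → ι → ι → ι → E → ℝ} {x : E}
    (hR : ∀ a b c d, DifferentiableAt ℝ (R a b c d) x) (k b c : ι) :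
    ∑ a, cov4 e Γ R k a b c a x = dd (e k) (fun y => ∑ a, R a b c a y) x -
      ∑ f, Γ k b f x * ∑ a, R a f c a x - ∑ f, Γ k c f x * ∑ a, R a b f a x := by
  rw [dd_sum (f := fun a y => R a b c a y) fun a => hR _ _ _ _]
  simp only [cov4, Finset.sum_add_distrib, Finset.sum_sub_distrib, Finset.mul_sum]
  rw [Finset.sum_comm (f := fun a f => Γ k f a x * R a b c f x),
    Finset.sum_comm (f := fun a f => Γ k b f x * R a f c a x),
    Finset.sum_comm (f := fun a f => Γ k c f x * R a b f a x)]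
  ring

lemma cov4_anti (e : ι → E → E) (Γ : ι → ι → ι → E → ℝ) {R : ι → ι → ι → ι → E → ℝ}
    (hR : ∀ a b c d y, R a b c d y = -R b a c d y) (k a b c d : ι) (x : E) :
    cov4 e Γ R k a b c d x = -cov4 e Γ R k b a c d x := by
  have : R a b c d = fun y => -R b a c d y := funext (hR a b c d)
  simp only [cov4]
  rw [this, dd_neg, neg_add, ← Finset.sum_neg_distrib]
  congr 1
  refine Finset.sum_congr rfl fun f _ => ?_
  rw [hR a b c f, hR f b c d, hR a f c d, hR a b f d]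
  ring

/-- The contracted Bianchi identity in vacuum. -/
lemma div_cur [DecidableEq ι] {O : Set E} {e : ι → E → E} {η : ι → ι → ℝ} {w : E → ℝ}
    {φ : ι → E → ℝ} {Γ : ι → ι → ι → E → ℝ} (hη : ∀ a b, η a b = η b a) (he : Frame O e)
    (hw : ContDiffOn ℝ ∞ w O) (hn : ∀ x ∈ O, w x ≠ 0) (hL : LC O e η w φ Γ)
    (hR : ∀ x ∈ O, ∀ b c, ∑ a, Cur e Γ a b c a x = 0) {x : E} (hx : x ∈ O) (b c d : ι) :
    ∑ a, cov4 e Γ (Cur e Γ) a b c d a x = 0 := by
  have h1 : ∀ k b c, ∑ a, cov4 e Γ (Cur e Γ) k a b c a x = 0 := fun k b c => by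
    rw [cov4_trace e Γ fun a b c d => diffAt he.isOpen (sm_cur he hL.smooth a b c d) hx,
      dd_congr he.isOpen (fun y hy => hR y hy b c) (e k) hx, dd_const]
    simp [hR x hx]
  have h2 := (k2 O e η w φ Γ hη he hw hn hL x hx).2.2
  have h3 : ∑ a, (cov4 e Γ (Cur e Γ) a b c d a x + cov4 e Γ (Cur e Γ) b c a d a x +
      cov4 e Γ (Cur e Γ) c a b d a x) = 0 := Finset.sum_eq_zero fun a _ => h2 a b c d a
  have h4 : ∑ a, cov4 e Γ (Cur e Γ) b c a d a x = -∑ a, cov4 e Γ (Cur e Γ) b a c d a x := by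
    rw [← Finset.sum_neg_distrib]
    exact Finset.sum_congr rfl fun a _ => cov4_anti e Γ
      (fun a b c d y => eq_neg_of_add_eq_zero_left (cur_anti e Γ a b c d y)) _ _ _ _ _ _
  rw [Finset.sum_add_distrib, Finset.sum_add_distrib, h4, h1, h1] at h3
  simpa using h3

end

theorem k2w : K2W := by
  intro O e w g φ Γ G he hg hL hV
  have hR : ∀ x ∈ O, ∀ b c, ∑ a, Cur e Γ a b c a x = 0 := fun x hx =>
    (k3 (Fin 4) O e eta etai w g φ Γ G rfl eta_ok he hg hL (fun y hy => (hV y hy).1) x hx).1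
      (hV x hx).2
  have hs : ∀ a b c d, ContDiffOn ℝ ∞
      (fun x => low eta (fun a b c d => Cur e Γ a b c d x) a b c d) O := fun a b c d =>
    ContDiffOn.sum fun f _ => (sm_cur he hL.smooth a b c f).mul contDiffOn_const
  have hW : ∀ x ∈ O, ∀ a b c d, Cur e Γ a b c d x =
      WeylU (psiRe (low eta fun a b c d => Cur e Γ a b c d x))
        (psiIm (low eta fun a b c d => Cur e Γ a b c d x)) a b c d := fun x hx => by
    obtain ⟨h1, h2, -⟩ := k2 O e eta w φ Γ eta_ok.symm he hg.smooth hg.ne hL x hx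
    exact kw _ (fun a b c d => cur_anti e Γ a b c d x) h1 h2 (hR x hx)
  refine ⟨fun x => psiRe (low eta fun a b c d => Cur e Γ a b c d x),
    fun x => psiIm (low eta fun a b c d => Cur e Γ a b c d x), fun k => ?_, fun k => ?_,
    fun x hx => ⟨hW x hx, fun b c d => ?_⟩⟩
  · fin_cases k
    exacts [(hs _ _ _ _).div_const _, (hs _ _ _ _).div_const _, (hs _ _ _ _).div_const _,
      (hs _ _ _ _).neg.div_const _, (hs _ _ _ _).div_const _]
  · fin_cases k
    exacts [(hs _ _ _ _).div_const _, (hs _ _ _ _).div_const _, (hs _ _ _ _).div_const _,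
      (hs _ _ _ _).div_const _, (hs _ _ _ _).neg.div_const _]
  · rw [← div_cur eta_ok.symm he hg.smooth hg.ne hL hR hx b c d]
    exact Finset.sum_congr rfl fun a _ =>
      (cov4_congr he.isOpen e Γ hW hx a b c d a).symm

end Vale.Agent.P354Q
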